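import Vale.Agent.P277.Stmts

/-!
# P277: interface between F1 (general position, on `X`) and F6 (forms, on `Y`)
-/

open scoped Manifold ContDiff Topology
open Vale.Agent.P272.K Vale.Agent.P285.H281.FD Vale.Agent.P267.H175 Set

noncomputable section

namespace Vale.Agent.P277

section
variable {Y : Type} [TopologicalSpace Y] [ChartedSpace (Cm 4) Y]

/-- `F` is smooth near `y` (in all charts). -/
def CSm (F : Y → ℂ) (y : Y) : Prop :=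
  ∀ e : Chart 4 Y, At e y → ContDiffAt ℝ ∞ (fun z => F (e.symm z)) (e y)

/-- `S` is a smooth section over `W ⊆ Y` of the line bundle `v^* L` (the coefficient `S i` is
relevant at the points `y ∈ W` with `v y ∈ L.U i`). -/
structure SmSec {T : Type} (v : Y → T) (L : Bd T) (W : Set Y) (S : L.ι → Y → ℂ) : Prop where
  smooth : ∀ i, ∀ y ∈ W, v y ∈ L.U i → CSm (S i) y
  change : ∀ i j, ∀ y ∈ W, v y ∈ L.U i → v y ∈ L.U j → S i y = L.g i j (v y) * S j y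

/-- common zeros over `W` of two sections -/
def Z2 {T : Type} (v : Y → T) (L : Bd T) (W : Set Y) (S S' : L.ι → Y → ℂ) : Set Y :=
  {y | y ∈ W ∧ ∃ i, v y ∈ L.U i ∧ S i y = 0 ∧ S' i y = 0}

end

/-- (F1) the output of the general position arguments. -/
def StF1 : Prop :=
  ∀ (Y : Type) [TopologicalSpace Y] [T2Space Y] [CompactSpace Y] [ChartedSpace (Cm 4) Y]
    [IsManifold 𝓘(ℂ, Cm 4) ω Y] (X : CSp) (O : Set Y) (v : Y → X.pt) (_ : IsOpenEmb X O v)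
    (_ : DimLe X 1 (v '' O)ᶜ) (P Q : Bd X.pt) (G : Set X.pt) (s s' : P.ι → X.pt → ℂ)
    (σ σ' : Q.ι → X.pt → ℂ) (x₀ : X.pt) (_ : FlipOut X O v P Q G s s' σ σ' x₀),
    ∃ S S' : P.ι → Y → ℂ, SmSec v P O S ∧ SmSec v P O S' ∧ IsCompact (Z2 v P O S S') ∧
      (∃ G₁ ⊆ G, IsOpen G₁ ∧ G ∩ Zs Q σ ∩ Zs Q σ' ⊆ G₁ ∧
        ∀ y ∈ O, v y ∈ G₁ → ∀ i, v y ∈ P.U i → S i y = s i (v y) ∧ S' i y = s' i (v y)) ∧
      ∀ C ⊆ O, IsCompact C → ∃ τ τ' : Q.ι → Y → ℂ,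
        SmSec v Q (O ∩ v ⁻¹' G) τ ∧ SmSec v Q (O ∩ v ⁻¹' G) τ' ∧
        IsCompact (Z2 v Q (O ∩ v ⁻¹' G) τ τ') ∧
        ∃ W : Set Y, IsOpen W ∧ C ⊆ W ∧ ∀ y ∈ W, y ∈ O → v y ∈ G → ∀ i, v y ∈ Q.U i →
          τ i y = σ i (v y) ∧ τ' i y = σ' i (v y)

end Vale.Agent.P277
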