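import Vale.Agent.P277.H60.Iface

/-!
# P277: interface between F4 (frames and cutoffs, on `Y`) and F5/F6 (forms, on `Y`)
-/

open scoped Manifold ContDiff Topology
open Vale.Agent.P272.K Vale.Agent.P285.H281.FD Vale.Agent.P267.H175 Set

noncomputable section

namespace Vale.Agent.P277

section
variable {Y : Type} [TopologicalSpace Y] [ChartedSpace (Cm 4) Y]

/-- A tuple of smooth sections of `v^* L` over `W` without common zeros (`F m i` is the coefficient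
of the section number `m` in the frame number `i`). -/
structure Tup {T : Type} (v : Y → T) (L : Bd T) (W : Set Y) {n : ℕ} (F : Fin n → L.ι → Y → ℂ) :
    Prop where
  sec : ∀ m, SmSec v L W (F m)
  ne : ∀ y ∈ W, ∀ i, v y ∈ L.U i → ∃ m, F m i y ≠ 0

/-- Near `y` the tuple `F` of functions is `(f, f', c(|f|² + |f'|²), 0, …, 0)`. -/
structure Rad {n : ℕ} (F : Fin (n + 3) → Y → ℂ) (f f' : Y → ℂ) (y : Y) (c : ℝ → ℝ) : Prop where
  smooth : ContDiff ℝ ∞ c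
  anti : Antitone c
  nonneg : ∀ t, 0 ≤ c t
  pos : 0 < c 0
  eq : ∀ᶠ x in 𝓝 y, F 0 x = f x ∧ F 1 x = f' x ∧ F 2 x = (c (‖f x‖ ^ 2 + ‖f' x‖ ^ 2) : ℂ) ∧
    ∀ m : Fin (n + 3), 3 ≤ m.val → F m x = 0

end

/-- (F4) the output of the construction of the tuples of sections. -/
def StF4 : Prop :=
  ∀ (Y : Type) [TopologicalSpace Y] [T2Space Y] [CompactSpace Y] [ChartedSpace (Cm 4) Y]
    [IsManifold 𝓘(ℂ, Cm 4) ω Y] (X : CSp) (O : Set Y) (v : Y → X.pt) (_ : IsOpenEmb X O v)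
    (_ : DimLe X 1 (v '' O)ᶜ) (P Q : Bd X.pt) (G : Set X.pt) (s s' : P.ι → X.pt → ℂ)
    (σ σ' : Q.ι → X.pt → ℂ) (x₀ : X.pt) (_ : FlipOut X O v P Q G s s' σ σ' x₀),
    ∃ (n : ℕ) (F : Fin (n + 3) → P.ι → Y → ℂ) (C₀ : Set Y),
      Tup v P O F ∧ C₀ ⊆ O ∧ IsCompact C₀ ∧
      (∀ y ∈ O, y ∉ C₀ → ∀ i, v y ∈ P.U i → ∀ m : Fin (n + 3), 2 ≤ m.val → F m i y = 0) ∧
      ∀ C ⊆ O, IsCompact C → Disjoint (v '' C) (G ∩ Zs Q σ ∩ Zs Q σ') →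
        ∃ (n' : ℕ) (F' : Fin (n' + 3) → Q.ι → Y → ℂ) (C' : Set Y),
          Tup v Q (O ∩ v ⁻¹' G) F' ∧ C' ⊆ O ∩ v ⁻¹' G ∧ IsCompact C' ∧ Disjoint C' C ∧
          (∀ y ∈ O ∩ v ⁻¹' G, y ∉ C' → ∀ i, v y ∈ Q.U i → ∀ m : Fin (n' + 3), 2 ≤ m.val →
            F' m i y = 0) ∧
          (∀ y ∈ C₀ ∩ C', ∃ i j c c', v y ∈ P.U i ∧ v y ∈ Q.U j ∧
            Rad (fun m => F m i) (fun y => s i (v y)) (fun y => s' i (v y)) y c ∧
            Rad (fun m => F' m j) (fun y => σ j (v y)) (fun y => σ' j (v y)) y c') ∧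
          ∃ y₀ ∈ O, v y₀ = x₀ ∧ ∃ i j c c', x₀ ∈ P.U i ∧ x₀ ∈ Q.U j ∧
            Rad (fun m => F m i) (fun y => s i (v y)) (fun y => s' i (v y)) y₀ c ∧
            Rad (fun m => F' m j) (fun y => σ j (v y)) (fun y => σ' j (v y)) y₀ c' ∧
            ∀ W : Set X.pt, IsOpen W → x₀ ∈ W →
              ∃ y ∈ O, v y ∈ W ∩ G ∩ (P.U i ∩ Q.U j) ∧ ∀ e : Chart 4 Y, At e y →
                Jac v ![s i, s' i, σ j, σ' j] e (e y) ≠ 0

end Vale.Agent.P277
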