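import Vale.Agent.P277.H60.Wedge

/-!
# P277: the Fubini-Study form of a tuple of functions
-/

set_option maxSynthPendingDepth 3

open scoped ContDiff Topology ComplexConjugate
open Vale.Agent.P267.H928.Int Vale.Agent.P267.H175

noncomputable section

namespace Vale.Agent.P277.H60

variable {n : ℕ}

/-- the Hermitian form on `ℂⁿ` -/
def hm (a u : Fin n → ℂ) : ℂ := ∑ l, conj (a l) * u l

theorem hm_add_left (a a' u : Fin n → ℂ) : hm (a + a') u = hm a u + hm a' u := by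
  simp only [hm, Pi.add_apply, map_add, add_mul, Finset.sum_add_distrib]

theorem hm_add_right (a u u' : Fin n → ℂ) : hm a (u + u') = hm a u + hm a u' := by
  simp only [hm, Pi.add_apply, mul_add, Finset.sum_add_distrib]

theorem hm_smul_left (c : ℂ) (a u : Fin n → ℂ) : hm (c • a) u = conj c * hm a u := by
  simp only [hm, Pi.smul_apply, smul_eq_mul, map_mul, Finset.mul_sum, mul_assoc]

theorem hm_smul_right (c : ℂ) (a u : Fin n → ℂ) : hm a (c • u) = c * hm a u := by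
  simp only [hm, Pi.smul_apply, smul_eq_mul, Finset.mul_sum]
  refine Finset.sum_congr rfl fun l _ => ?_
  ring

theorem hm_conj (a u : Fin n → ℂ) : conj (hm a u) = hm u a := by
  simp only [hm, map_sum, map_mul, Complex.conj_conj]
  refine Finset.sum_congr rfl fun l _ => ?_
  ring

/-- `ρ(a) = |a|²` -/
def rho (a : Fin n → ℂ) : ℝ := ∑ l, Complex.normSq (a l)

theorem hm_self (a : Fin n → ℂ) : hm a a = (rho a : ℂ) := by
  simp only [hm, rho, Complex.ofReal_sum, Complex.normSq_eq_conj_mul_self]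

theorem rho_nonneg (a : Fin n → ℂ) : 0 ≤ rho a := Finset.sum_nonneg fun _ _ => Complex.normSq_nonneg _

theorem rho_pos {a : Fin n → ℂ} (h : a ≠ 0) : 0 < rho a := by
  refine (rho_nonneg a).lt_of_ne' fun h0 => h ?_
  funext l
  have := (Finset.sum_eq_zero_iff_of_nonneg (fun l _ => Complex.normSq_nonneg (a l))).1 h0 l
    (Finset.mem_univ l)
  simpa using this

theorem rho_smul (c : ℂ) (a : Fin n → ℂ) : rho (c • a) = Complex.normSq c * rho a := by
  simp [rho, Finset.mul_sum]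

/-- the Hermitian form as a continuous bilinear map -/
def hmL (n : ℕ) : (Fin n → ℂ) →L[ℝ] (Fin n → ℂ) →L[ℝ] ℂ :=
  ∑ l : Fin n, (ContinuousLinearMap.mul ℝ ℂ).bilinearComp
    ((Complex.conjCLE : ℂ →L[ℝ] ℂ) ∘L (ContinuousLinearMap.proj l : (Fin n → ℂ) →L[ℝ] ℂ))
    (ContinuousLinearMap.proj l : (Fin n → ℂ) →L[ℝ] ℂ)

@[simp] theorem hmL_apply (a u : Fin n → ℂ) : hmL n a u = hm a u := by
  simp [hmL, hm]

theorem rho_eq (a : Fin n → ℂ) : rho a = Complex.reCLM (hmL n a a) := by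
  simp [hm_self]

theorem contDiff_hmL {r : WithTop ℕ∞} : ContDiff ℝ r (fun a : Fin n → ℂ => hmL n a) :=
  (hmL n).contDiff

theorem contDiff_rho {r : WithTop ℕ∞} : ContDiff ℝ r (fun a : Fin n → ℂ => rho a) := by
  simp only [rho_eq]
  exact Complex.reCLM.contDiff.comp (contDiff_hmL.clm_apply contDiff_id)

/-- the imaginary part of the Hermitian form -/
def imJ (n : ℕ) : Bil (Fin n → ℂ) := (ContinuousLinearMap.compL ℝ (Fin n → ℂ) ℂ ℝ Complex.imCLM) ∘L hmL n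

@[simp] theorem imJ_apply (u w : Fin n → ℂ) : imJ n u w = (hm u w).im := by
  simp [imJ]

/-- real and imaginary parts of `⟨a, ·⟩` -/
def reL (a : Fin n → ℂ) : (Fin n → ℂ) →L[ℝ] ℝ := Complex.reCLM ∘L hmL n a
def imL (a : Fin n → ℂ) : (Fin n → ℂ) →L[ℝ] ℝ := Complex.imCLM ∘L hmL n a

@[simp] theorem reL_apply (a u : Fin n → ℂ) : reL a u = (hm a u).re := by simp [reL]
@[simp] theorem imL_apply (a u : Fin n → ℂ) : imL a u = (hm a u).im := by simp [imL]

/-- The Fubini-Study form (a skew-symmetric bilinear form) at `a ≠ 0`. -/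
def fsB (a : Fin n → ℂ) : Bil (Fin n → ℂ) :=
  (rho a ^ 2)⁻¹ • (rho a • imJ n - ((reL a).smulRight (imL a) - (imL a).smulRight (reL a)))

theorem fsB_apply (a u w : Fin n → ℂ) :
    fsB a u w = (rho a ^ 2)⁻¹ * ((rho a : ℂ) * hm u w - hm u a * hm a w).im := by
  simp only [fsB, _root_.smul_apply, _root_.sub_apply, imJ_apply,
    ContinuousLinearMap.smulRight_apply, reL_apply, imL_apply, smul_eq_mul, Complex.sub_im,
    Complex.mul_im, Complex.ofReal_re, Complex.ofReal_im]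
  rw [← hm_conj a u]
  simp only [Complex.conj_re, Complex.conj_im]
  ring

theorem fsB_skew (a u w : Fin n → ℂ) : fsB a w u = - fsB a u w := by
  rw [fsB_apply, fsB_apply, ← mul_neg, ← Complex.neg_im]
  congr 1
  have : (rho a : ℂ) * hm w u - hm w a * hm a u = conj ((rho a : ℂ) * hm u w - hm u a * hm a w) := by
    rw [map_sub, map_mul, map_mul, hm_conj, hm_conj, hm_conj, Complex.conj_ofReal]
    ring
  rw [this, Complex.conj_im, Complex.neg_im]

/-- frame invariance -/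
theorem fsB_frame {l : ℂ} (hl : l ≠ 0) (a u w : Fin n → ℂ) (m k : ℂ) :
    fsB (l • a) (l • u + m • a) (l • w + k • a) = fsB a u w := by
  rw [fsB_apply, fsB_apply]
  have h1 : ((rho (l • a) : ℝ) : ℂ) * hm (l • u + m • a) (l • w + k • a) -
      hm (l • u + m • a) (l • a) * hm (l • a) (l • w + k • a) =
      (((Complex.normSq l) ^ 2 : ℝ) : ℂ) * ((rho a : ℂ) * hm u w - hm u a * hm a w) := by
    simp only [hm_add_left, hm_add_right, hm_smul_left, hm_smul_right, rho_smul, hm_self]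
    push_cast
    rw [Complex.normSq_eq_conj_mul_self]
    ring
  have h2 : Complex.normSq l ≠ 0 := by simpa using hl
  rw [h1, Complex.im_ofReal_mul, rho_smul, mul_pow, mul_inv]
  field_simp

theorem contDiffAt_fsB {r : WithTop ℕ∞} {a : Fin n → ℂ} (ha : a ≠ 0) : ContDiffAt ℝ r fsB a := by
  have h0 : ContDiffAt ℝ r (fun a : Fin n → ℂ => rho a) a := contDiff_rho.contDiffAt
  have h1 : ContDiffAt ℝ r (fun a : Fin n → ℂ => reL a) a :=
    contDiffAt_const.clm_comp contDiff_hmL.contDiffAt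
  have h2 : ContDiffAt ℝ r (fun a : Fin n → ℂ => imL a) a :=
    contDiffAt_const.clm_comp contDiff_hmL.contDiffAt
  have h3 : ContDiffAt ℝ r (fun a : Fin n → ℂ => (reL a).smulRight (imL a)) a := h1.smulRight h2
  have h4 : ContDiffAt ℝ r (fun a : Fin n → ℂ => (imL a).smulRight (reL a)) a := h2.smulRight h1
  exact ((h0.pow 2).inv (pow_ne_zero 2 (rho_pos ha).ne')).smul
    ((h0.smul contDiffAt_const).sub (h3.sub h4))

/-- the (local) potential of the Fubini-Study form -/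
def fsA (a : Fin n → ℂ) : (Fin n → ℂ) →L[ℝ] ℝ := (rho a)⁻¹ • imJ n a

theorem contDiffAt_fsA {r : WithTop ℕ∞} {a : Fin n → ℂ} (ha : a ≠ 0) : ContDiffAt ℝ r fsA a :=
  ((contDiff_rho.contDiffAt).inv (rho_pos ha).ne').smul (imJ n).contDiff.contDiffAt

theorem hasFDerivAt_rho (a : Fin n → ℂ) : HasFDerivAt rho ((2 : ℝ) • reL a) a := by
  have h1 : HasFDerivAt (fun a => hmL n a a)
      ((hmL n a) ∘L (ContinuousLinearMap.id ℝ _) + (hmL n).flip a) a :=
    ((hmL n).hasFDerivAt (x := a)).clm_apply (hasFDerivAt_id a)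
  have h2 : HasFDerivAt (fun a => Complex.reCLM (hmL n a a)) _ a :=
    Complex.reCLM.hasFDerivAt.comp a h1
  have h3 : (rho : (Fin n → ℂ) → ℝ) = fun a => Complex.reCLM (hmL n a a) := funext rho_eq
  rw [h3]
  refine h2.congr_fderiv ?_
  ext u
  simp only [ContinuousLinearMap.comp_apply, _root_.add_apply, ContinuousLinearMap.id_apply,
    ContinuousLinearMap.flip_apply, hmL_apply, Complex.reCLM_apply, Complex.add_re,
    _root_.smul_apply, reL_apply, smul_eq_mul]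
  rw [← hm_conj a u, Complex.conj_re]
  ring

theorem hasFDerivAt_fsA {a : Fin n → ℂ} (ha : a ≠ 0) :
    HasFDerivAt fsA ((rho a)⁻¹ • imJ n + (-(rho a ^ 2)⁻¹ • ((2 : ℝ) • reL a)).smulRight (imJ n a))
      a := by
  have h1 : HasFDerivAt (fun a : Fin n → ℂ => (rho a)⁻¹) (-(rho a ^ 2)⁻¹ • ((2 : ℝ) • reL a)) a :=
    (hasDerivAt_inv (rho_pos ha).ne').comp_hasFDerivAt a (hasFDerivAt_rho a)
  exact h1.smul (imJ n).hasFDerivAt

theorem fderiv_fsA {a : Fin n → ℂ} (ha : a ≠ 0) (u w : Fin n → ℂ) :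
    fderiv ℝ fsA a u w - fderiv ℝ fsA a w u = fsB a u w - fsB a w u := by
  have h := rho_pos ha
  rw [(hasFDerivAt_fsA ha).fderiv, fsB_skew a u w, fsB_apply]
  simp only [_root_.smul_apply, _root_.add_apply, imJ_apply,
    ContinuousLinearMap.smulRight_apply, reL_apply, smul_eq_mul, Complex.sub_im,
    Complex.mul_im, Complex.ofReal_re, Complex.ofReal_im]
  rw [← hm_conj a u, ← hm_conj u w]
  simp only [Complex.conj_re, Complex.conj_im]
  field_simp
  ring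

/-! ### pullbacks by a map `F` -/

variable {E : Type*} [NormedAddCommGroup E] [NormedSpace ℝ E]

/-- the Fubini-Study form of a tuple of functions -/
def fsF (F : E → Fin n → ℂ) (z : E) : Bil E := pb (fsB (F z)) (fderiv ℝ F z)

theorem fsF_apply (F : E → Fin n → ℂ) (z u w : E) :
    fsF F z u w = fsB (F z) (fderiv ℝ F z u) (fderiv ℝ F z w) := rfl

theorem pb_eq (B : Bil (Fin n → ℂ)) (T : E →L[ℝ] Fin n → ℂ) :
    pb B T = ((ContinuousLinearMap.compL ℝ E (Fin n → ℂ) ℝ).flip T) ∘L (B ∘L T) := rfl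

theorem contDiffAt_fsF {F : E → Fin n → ℂ} {z : E} (hF : ContDiffAt ℝ ∞ F z) (h : F z ≠ 0) :
    ContDiffAt ℝ ∞ (fsF F) z := by
  have h1 : ContDiffAt ℝ ∞ (fun y => fsB (F y)) z := (contDiffAt_fsB h).comp z hF
  have h2 : ContDiffAt ℝ ∞ (fderiv ℝ F) z := hF.fderiv_right (m := ∞) (by simp)
  have h3 : ContDiffAt ℝ ∞
      (fun y => (ContinuousLinearMap.compL ℝ E (Fin n → ℂ) ℝ).flip (fderiv ℝ F y)) z :=
    ((ContinuousLinearMap.compL ℝ E (Fin n → ℂ) ℝ).flip).contDiff.contDiffAt.comp z h2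
  exact h3.clm_comp (h1.clm_comp h2)

/-- the local potential -/
def fsP (F : E → Fin n → ℂ) (z : E) : E →L[ℝ] ℝ := (fsA (F z)) ∘L fderiv ℝ F z

theorem contDiffAt_fsP {F : E → Fin n → ℂ} {z : E} (hF : ContDiffAt ℝ ∞ F z) (h : F z ≠ 0) :
    ContDiffAt ℝ ∞ (fsP F) z := by
  have h1 : ContDiffAt ℝ ∞ (fun y => fsA (F y)) z := (contDiffAt_fsA h).comp z hF
  have h2 : ContDiffAt ℝ ∞ (fderiv ℝ F) z := hF.fderiv_right (m := ∞) (by simp)
  exact h1.clm_comp h2

theorem fderiv_fsP {F : E → Fin n → ℂ} {z : E} (hF : ContDiffAt ℝ 2 F z) (h : F z ≠ 0) (u w : E) :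
    fderiv ℝ (fsP F) z u w - fderiv ℝ (fsP F) z w u = fsF F z u w - fsF F z w u := by
  have h1 : HasFDerivAt (fun y => fsA (F y)) ((fderiv ℝ fsA (F z)) ∘L fderiv ℝ F z) z :=
    ((contDiffAt_fsA (r := 1) h).differentiableAt (by simp)).hasFDerivAt.comp z
      (hF.differentiableAt (by simp)).hasFDerivAt
  have h2 : HasFDerivAt (fderiv ℝ F) (fderiv ℝ (fderiv ℝ F) z) z :=
    ((hF.fderiv_right (m := 1) (by norm_num)).differentiableAt (by simp)).hasFDerivAt
  have h3 : HasFDerivAt (fsP F) _ z := h1.clm_comp h2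
  have h4 : IsSymmSndFDerivAt ℝ F z := hF.isSymmSndFDerivAt (by simp)
  have h5 := h4 u w
  have h6 := fderiv_fsA h (fderiv ℝ F z u) (fderiv ℝ F z w)
  have h7 : ∀ u w, fderiv ℝ (fsP F) z u w = fsA (F z) (fderiv ℝ (fderiv ℝ F) z u w) +
      fderiv ℝ fsA (F z) (fderiv ℝ F z u) (fderiv ℝ F z w) := by
    intro u w
    rw [h3.fderiv]
    simp
  rw [h7, h7, fsF_apply, fsF_apply, h5, ← h6]
  ring

/-- the Fubini-Study form is closed -/
theorem extDeriv_W2_fsF {k : ℕ} {F : E → Fin n → ℂ} {z : E} {β : E → E [⋀^Fin k]→L[ℝ] ℝ}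
    (hF : ContDiffAt ℝ ∞ F z) (h : F z ≠ 0) (hβ : ContDiffAt ℝ ∞ β z) :
    extDeriv (fun y => W2 (fsF F y) (β y)) z = W2 (fsF F z) (extDeriv β z) := by
  have h2F : ContDiffAt ℝ 2 F z := hF.of_le (by norm_cast)
  have hF' : ∀ᶠ y in 𝓝 z, ContDiffAt ℝ 2 F y := h2F.eventually (by simp)
  have h1 : (fun y => W2 (fsF F y) (β y)) =ᶠ[𝓝 z] fun y => W2 (fderiv ℝ (fsP F) y) (β y) := by
    filter_upwards [hF', hF.continuousAt.eventually_ne h] with y h2 h3
    exact (W2_congr (fun u w => fderiv_fsP h2 h3 u w) _).symm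
  rw [h1.extDeriv_eq, extDeriv_W2_fun (contDiffAt_fsP hF h) hβ]
  exact W2_congr (fun u w => fderiv_fsP h2F h u w) _

/-- independence of the frame -/
theorem fsF_frame {F F' : E → Fin n → ℂ} {z : E} (hF : DifferentiableAt ℝ F z)
    (hF' : DifferentiableAt ℝ F' z) (h : F z ≠ 0) (h' : F' z ≠ 0)
    (heq : ∀ᶠ y in 𝓝 z, ∃ g : ℂ, F y = g • F' y) : fsF F z = fsF F' z := by
  let g : E → ℂ := fun y => ((rho (F' y))⁻¹ : ℝ) * hmL n (F' y) (F y)
  have h1 : ∀ᶠ y in 𝓝 z, F y = g y • F' y := by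
    filter_upwards [heq, hF'.continuousAt.eventually_ne h'] with y ⟨c, hc⟩ hy
    have h2 : (rho (F' y) : ℂ) ≠ 0 := by exact_mod_cast (rho_pos hy).ne'
    have h3 : g y = c := by
      simp only [g, hmL_apply]
      rw [hc, hm_smul_right, hm_self]
      push_cast
      field_simp
    rw [h3, hc]
  have h2 : DifferentiableAt ℝ g z := by
    have h3 : DifferentiableAt ℝ (fun y => ((rho (F' y))⁻¹ : ℝ)) z :=
      ((contDiff_rho (r := 1)).contDiffAt.differentiableAt (by simp)).comp z hF' |>.inv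
        (rho_pos h').ne'
    have h4 : DifferentiableAt ℝ (fun y => hmL n (F' y) (F y)) z :=
      ((hmL n).differentiableAt.comp z hF').clm_apply hF
    exact (Complex.ofRealCLM.differentiableAt.comp z h3).mul h4
  have hg : g z ≠ 0 := by
    intro h3
    apply h
    rw [h1.self_of_nhds, h3, zero_smul]
  have h5 : HasFDerivAt F (g z • fderiv ℝ F' z + (fderiv ℝ g z).smulRight (F' z)) z :=
    (h2.hasFDerivAt.smul hF'.hasFDerivAt).congr_of_eventuallyEq h1
  ext u w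
  rw [fsF_apply, fsF_apply, h5.fderiv, h1.self_of_nhds]
  exact fsB_frame hg _ _ _ _ _

/-- a linear combination of two sections: the form has rank one. -/
theorem fsF_two {k : ℕ} {F : E → Fin (n + 2) → ℂ} {z : E} (hF : DifferentiableAt ℝ F z)
    (heq : ∀ᶠ y in 𝓝 z, ∀ m : Fin (n + 2), 2 ≤ m.val → F y m = 0) (β : E [⋀^Fin k]→L[ℝ] ℝ) :
    W2 (fsF F z) (W2 (fsF F z) β) = 0 := by
  have h1 : ∀ m : Fin (n + 2), 2 ≤ m.val → ∀ u, fderiv ℝ F z u m = 0 := by
    intro m hm u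
    have h2 : HasFDerivAt (fun y => F y m) ((ContinuousLinearMap.proj m).comp (fderiv ℝ F z)) z :=
      (hasFDerivAt_pi'.1 hF.hasFDerivAt) m
    have h3 : HasFDerivAt (fun y => F y m) (0 : E →L[ℝ] ℂ) z :=
      (hasFDerivAt_const (0 : ℂ) z).congr_of_eventuallyEq (heq.mono fun y hy => hy m hm)
    have h4 := h2.unique h3
    have h5 := congrArg (fun T : E →L[ℝ] ℂ => T u) h4
    simpa using h5
  have h0 : ∀ m : Fin (n + 2), 2 ≤ m.val → F z m = 0 := heq.self_of_nhds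
  set a := F z with ha
  let D : E →L[ℝ] ℂ := ((a 0) • (ContinuousLinearMap.proj 1 : (Fin (n + 2) → ℂ) →L[ℝ] ℂ) -
    (a 1) • (ContinuousLinearMap.proj 0 : (Fin (n + 2) → ℂ) →L[ℝ] ℂ)) ∘L fderiv ℝ F z
  have hD : ∀ u, D u = a 0 * fderiv ℝ F z u 1 - a 1 * fderiv ℝ F z u 0 := fun u => by
    simp [D]
  have hhm : ∀ u w : Fin (n + 2) → ℂ, (∀ m : Fin (n + 2), 2 ≤ m.val → u m = 0) →
      hm u w = conj (u 0) * w 0 + conj (u 1) * w 1 := by
    intro u w hu
    rw [hm, Fin.sum_univ_succ, Fin.sum_univ_succ, Finset.sum_eq_zero, add_zero]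
    · rfl
    · intro i _
      rw [hu _ (by simp), map_zero, zero_mul]
  have hkey : ∀ u w, fsF F z u w - fsF F z w u =
      ((2 * (rho a ^ 2)⁻¹) • (Complex.reCLM ∘L D).smulRight (Complex.imCLM ∘L D)) u w -
      ((2 * (rho a ^ 2)⁻¹) • (Complex.reCLM ∘L D).smulRight (Complex.imCLM ∘L D)) w u := by
    intro u w
    rw [fsF_apply, fsF_apply, ← ha, fsB_skew a (fderiv ℝ F z u) (fderiv ℝ F z w), fsB_apply]
    have h2 : ((rho a : ℂ) * hm (fderiv ℝ F z u) (fderiv ℝ F z w) -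
        hm (fderiv ℝ F z u) a * hm a (fderiv ℝ F z w)) = conj (D u) * D w := by
      rw [← hm_self, hhm _ _ h0, hhm _ _ (fun m hm => h1 m hm u), hhm _ _ (fun m hm => h1 m hm u),
        hhm _ _ h0, hD, hD]
      simp only [map_sub, map_mul]
      ring
    rw [h2]
    simp only [_root_.smul_apply, ContinuousLinearMap.smulRight_apply,
      ContinuousLinearMap.comp_apply, Complex.reCLM_apply, Complex.imCLM_apply, smul_eq_mul,
      Complex.mul_im, Complex.conj_re, Complex.conj_im]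
    ring
  rw [W2_congr hkey, W2_congr hkey, W2_smul, W2_smul, W2_smul_right, W2_rank1_sq, smul_zero,
    smul_zero]

theorem pf_aux (a0 b0 a1 b1 C D ρ : ℝ) (hρ : ρ ≠ 0)
    (h : C ^ 2 = ρ - (a0 ^ 2 + b0 ^ 2 + (a1 ^ 2 + b1 ^ 2))) :
    2 * ((2 / ρ - 2 * (1 + 2 * C * D) / ρ ^ 2 * (a0 ^ 2 + b0 ^ 2)) *
      (2 / ρ - 2 * (1 + 2 * C * D) / ρ ^ 2 * (a1 ^ 2 + b1 ^ 2)) -
      -(2 * (1 + 2 * C * D) / ρ ^ 2 * (a1 * b0 - a0 * b1)) *
        -(2 * (1 + 2 * C * D) / ρ ^ 2 * (a1 * b0 - a0 * b1)) +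
      -(2 * (1 + 2 * C * D) / ρ ^ 2 * (a0 * a1 + b0 * b1)) *
        (2 * (1 + 2 * C * D) / ρ ^ 2 * (a0 * a1 + b0 * b1))) =
      8 / ρ ^ 3 * (C ^ 2 - 2 * (a0 ^ 2 + b0 ^ 2 + (a1 ^ 2 + b1 ^ 2)) * C * D) := by
  rw [h]
  field_simp
  ring

/-- the radial case -/
theorem fsF_rad {k : ℕ} {F : E → Fin (n + 3) → ℂ} {f f' : E → ℂ} {c : ℝ → ℝ} {z : E}
    (hF : DifferentiableAt ℝ F z) (h : F z ≠ 0) (hf : DifferentiableAt ℝ f z)
    (hf' : DifferentiableAt ℝ f' z) (hc : DifferentiableAt ℝ c (‖f z‖ ^ 2 + ‖f' z‖ ^ 2))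
    (heq : ∀ᶠ y in 𝓝 z, F y 0 = f y ∧ F y 1 = f' y ∧ F y 2 = (c (‖f y‖ ^ 2 + ‖f' y‖ ^ 2) : ℂ) ∧
      ∀ m : Fin (n + 3), 3 ≤ m.val → F y m = 0) (β : E [⋀^Fin k]→L[ℝ] ℝ) :
    W2 (fsF F z) (W2 (fsF F z) β) = (8 / rho (F z) ^ 3 * (c (‖f z‖ ^ 2 + ‖f' z‖ ^ 2) ^ 2 -
      2 * (‖f z‖ ^ 2 + ‖f' z‖ ^ 2) * c (‖f z‖ ^ 2 + ‖f' z‖ ^ 2) *
        deriv c (‖f z‖ ^ 2 + ‖f' z‖ ^ 2))) •
      wedge1 (Complex.reCLM ∘L fderiv ℝ f z) (wedge1 (Complex.imCLM ∘L fderiv ℝ f z)
        (wedge1 (Complex.reCLM ∘L fderiv ℝ f' z) (wedge1 (Complex.imCLM ∘L fderiv ℝ f' z) β))) := by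
  set t := ‖f z‖ ^ 2 + ‖f' z‖ ^ 2 with ht
  have hcomp : ∀ m : Fin (n + 3), HasFDerivAt (fun y => F y m)
      ((ContinuousLinearMap.proj m).comp (fderiv ℝ F z)) z := fun m =>
    (hasFDerivAt_pi'.1 hF.hasFDerivAt) m
  have h3 : ∀ m : Fin (n + 3), 3 ≤ m.val → ∀ u, fderiv ℝ F z u m = 0 := by
    intro m hm u
    have h3 : HasFDerivAt (fun y => F y m) (0 : E →L[ℝ] ℂ) z :=
      (hasFDerivAt_const (0 : ℂ) z).congr_of_eventuallyEq (heq.mono fun y hy => hy.2.2.2 m hm)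
    have h4 := (hcomp m).unique h3
    have h5 := congrArg (fun T : E →L[ℝ] ℂ => T u) h4
    simpa using h5
  have h0 : ∀ u, fderiv ℝ F z u 0 = fderiv ℝ f z u := by
    intro u
    have h3 : HasFDerivAt (fun y => F y 0) (fderiv ℝ f z) z :=
      hf.hasFDerivAt.congr_of_eventuallyEq (heq.mono fun y hy => hy.1)
    exact congrArg (fun T : E →L[ℝ] ℂ => T u) ((hcomp 0).unique h3)
  have h1 : ∀ u, fderiv ℝ F z u 1 = fderiv ℝ f' z u := by
    intro u
    have h3 : HasFDerivAt (fun y => F y 1) (fderiv ℝ f' z) z :=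
      hf'.hasFDerivAt.congr_of_eventuallyEq (heq.mono fun y hy => hy.2.1)
    exact congrArg (fun T : E →L[ℝ] ℂ => T u) ((hcomp 1).unique h3)
  have h2 : ∀ u, fderiv ℝ F z u 2 = ((deriv c t * (2 * ((f z).re * (fderiv ℝ f z u).re +
      (f z).im * (fderiv ℝ f z u).im + (f' z).re * (fderiv ℝ f' z u).re +
      (f' z).im * (fderiv ℝ f' z u).im)) : ℝ) : ℂ) := by
    intro u
    have h3 : HasFDerivAt (fun y => ‖f y‖ ^ 2 + ‖f' y‖ ^ 2) _ z :=
      hf.hasFDerivAt.norm_sq.add hf'.hasFDerivAt.norm_sq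
    have h4 : HasFDerivAt (fun y => c (‖f y‖ ^ 2 + ‖f' y‖ ^ 2)) _ z :=
      hc.hasDerivAt.comp_hasFDerivAt z h3
    have h5 : HasFDerivAt (fun y => (c (‖f y‖ ^ 2 + ‖f' y‖ ^ 2) : ℂ)) _ z :=
      Complex.ofRealCLM.hasFDerivAt.comp z h4
    have h6 := (hcomp 2).unique (h5.congr_of_eventuallyEq (heq.mono fun y hy => hy.2.2.1))
    have h7 := congrArg (fun T : E →L[ℝ] ℂ => T u) h6
    simp only [ContinuousLinearMap.comp_apply, ContinuousLinearMap.proj_apply] at h7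
    rw [h7]
    simp [Complex.inner]
    ring
  have hhm : ∀ u w : Fin (n + 3) → ℂ, (∀ m : Fin (n + 3), 3 ≤ m.val → u m = 0) →
      hm u w = conj (u 0) * w 0 + conj (u 1) * w 1 + conj (u 2) * w 2 := by
    intro u w hu
    rw [hm, Fin.sum_univ_succ, Fin.sum_univ_succ, Fin.sum_univ_succ, Finset.sum_eq_zero, add_zero,
      ← add_assoc]
    · rfl
    · intro i _
      rw [hu _ (by simp), map_zero, zero_mul]
  obtain ⟨e0, e1, e2, e3⟩ := heq.self_of_nhds
  have hrho : rho (F z) = t + c t ^ 2 := by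
    have h5 : (rho (F z) : ℂ) = ((t + c t ^ 2 : ℝ) : ℂ) := by
      rw [← hm_self, hhm _ _ e3, e0, e1, e2, ht]
      push_cast
      rw [← Complex.normSq_eq_conj_mul_self, ← Complex.normSq_eq_conj_mul_self,
        Complex.normSq_eq_norm_sq, Complex.normSq_eq_norm_sq, Complex.conj_ofReal]
      push_cast
      ring
    exact_mod_cast h5
  have hpos := rho_pos h
  set ρ := rho (F z) with hρ
  set l0 : E →L[ℝ] ℝ := Complex.reCLM ∘L fderiv ℝ f z with hl0
  set l1 : E →L[ℝ] ℝ := Complex.imCLM ∘L fderiv ℝ f z with hl1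
  set l2 : E →L[ℝ] ℝ := Complex.reCLM ∘L fderiv ℝ f' z with hl2
  set l3 : E →L[ℝ] ℝ := Complex.imCLM ∘L fderiv ℝ f' z with hl3
  set q : ℝ := 2 * (1 + 2 * c t * deriv c t) / ρ ^ 2 with hq
  have hkey : ∀ u w, fsF F z u w - fsF F z w u =
      pfB (2 / ρ - q * ((f z).re ^ 2 + (f z).im ^ 2))
        (-(q * ((f' z).re * (f z).im - (f z).re * (f' z).im)))
        (-(q * ((f z).re * (f' z).re + (f z).im * (f' z).im)))
        (q * ((f z).re * (f' z).re + (f z).im * (f' z).im))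
        (-(q * ((f' z).re * (f z).im - (f z).re * (f' z).im)))
        (2 / ρ - q * ((f' z).re ^ 2 + (f' z).im ^ 2)) l0 l1 l2 l3 u w -
      pfB (2 / ρ - q * ((f z).re ^ 2 + (f z).im ^ 2))
        (-(q * ((f' z).re * (f z).im - (f z).re * (f' z).im)))
        (-(q * ((f z).re * (f' z).re + (f z).im * (f' z).im)))
        (q * ((f z).re * (f' z).re + (f z).im * (f' z).im))
        (-(q * ((f' z).re * (f z).im - (f z).re * (f' z).im)))
        (2 / ρ - q * ((f' z).re ^ 2 + (f' z).im ^ 2)) l0 l1 l2 l3 w u := by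
    intro u w
    rw [fsF_apply, fsF_apply, fsB_skew (F z) (fderiv ℝ F z u) (fderiv ℝ F z w), fsB_apply]
    rw [hhm _ _ (fun m hm => h3 m hm u), hhm _ _ (fun m hm => h3 m hm u), hhm _ _ e3]
    rw [e0, e1, e2, h0, h0, h1, h1, h2, h2, ← hρ, ← ht]
    simp only [pfB, _root_.smul_apply, _root_.add_apply, ContinuousLinearMap.smulRight_apply,
      hl0, hl1, hl2, hl3,
      ContinuousLinearMap.comp_apply, Complex.reCLM_apply, Complex.imCLM_apply, smul_eq_mul,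
      Complex.mul_im, Complex.mul_re, Complex.add_re, Complex.add_im, Complex.sub_im,
      Complex.conj_re, Complex.conj_im, Complex.ofReal_re, Complex.ofReal_im]
    rw [hq]
    field_simp
    ring
  rw [W2_congr hkey, W2_congr hkey, W2_pfB_sq]
  congr 1
  have ht' : t = (f z).re ^ 2 + (f z).im ^ 2 + ((f' z).re ^ 2 + (f' z).im ^ 2) := by
    rw [ht, ← Complex.normSq_eq_norm_sq, ← Complex.normSq_eq_norm_sq, Complex.normSq_apply,
      Complex.normSq_apply]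
    ring
  have hc2 : c t ^ 2 = ρ - ((f z).re ^ 2 + (f z).im ^ 2 + ((f' z).re ^ 2 + (f' z).im ^ 2)) := by
    rw [hrho]
    linarith
  rw [hq, pf_aux _ _ _ _ (c t) (deriv c t) ρ hpos.ne' hc2, ← ht']

end Vale.Agent.P277.H60
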