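import Vale.Agent.P277.H60.Gen

/-!
# P277: package F, from the tuples of sections (StF4) to the forms (StF)
-/

set_option maxSynthPendingDepth 3

open Module Set Function Filter MeasureTheory
open scoped ContDiff Topology ComplexConjugate Manifold
open Vale.Agent.P272.K Vale.Agent.P285.H281.FD Vale.Agent.P267.H175
open Vale.Agent.P267.H928.Int (Pou PosAtlas isManifold_real posAtlas_complex exists_pou)

noncomputable section

namespace Vale.Agent.P277.H60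

section
variable {Y : Type} [TopologicalSpace Y] [ChartedSpace (Cm 4) Y]

/-- the projective map of a tuple of sections -/
def toPMap {T : Type} {v : Y → T} {L : Bd T} {W : Set Y} {n : ℕ} {F : Fin n → L.ι → Y → ℂ}
    (h : Tup v L W F) (ho : ∀ i, IsOpen {y | y ∈ W ∧ v y ∈ L.U i}) : PMap (Cm 4) n Y where
  I := L.ι
  D i := {y | y ∈ W ∧ v y ∈ L.U i}
  F i y m := F m i y
  isOpen := ho
  smooth i y hy e he hye := by
    rw [contDiffAt_pi]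
    exact fun m => (h.sec m).smooth i y hy.1 hy.2 e ⟨he, hye⟩
  ne i y hy h0 := by
    obtain ⟨m, hm⟩ := h.ne y hy.1 i hy.2
    exact hm (congrFun h0 m)
  change i j y hi hj := by
    refine ⟨L.g i j (v y), ?_⟩
    funext m
    exact (h.sec m).change i j y hi.1 hi.2 hj.2

theorem supp_toPMap {T : Type} {v : Y → T} {L : Bd T} {W : Set Y} {n : ℕ}
    {F : Fin (n + 3) → L.ι → Y → ℂ} (h : Tup v L W F) (ho : ∀ i, IsOpen {y | y ∈ W ∧ v y ∈ L.U i})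
    (hcov : ∀ y ∈ W, ∃ i, v y ∈ L.U i) {K : Set Y} (hK : IsClosed K) (hKW : K ⊆ W)
    (hz : ∀ y ∈ W, y ∉ K → ∀ i, v y ∈ L.U i → ∀ m : Fin (n + 3), 2 ≤ m.val → F m i y = 0) :
    (toPMap h ho).Supp K where
  isClosed := hK
  sub y hy := by
    obtain ⟨i, hi⟩ := hcov y (hKW hy)
    exact ⟨i, hKW hy, hi⟩
  zero k a y hy := by
    by_cases hd : y ∈ (toPMap h ho).dom
    · obtain ⟨i, hi⟩ := hd
      refine PMap.WW_eq_zero (n := n + 1) (toPMap h ho) hi ?_ a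
      filter_upwards [((toPMap h ho).isOpen i).mem_nhds hi, hK.isOpen_compl.mem_nhds hy] with x hx
        hxK m hm
      exact hz x hx.1 hxK i hx.2 m hm
    · exact PMap.W_of_notMem _ _ hd

theorem exists_basis8 : Nonempty (BS (Cm 4) (4 + 1 + 1 + 1 + 1)) := by
  refine ⟨Module.finBasisOfFinrankEq ℝ (Cm 4) ?_⟩
  have h : Module.finrank ℝ (Fin 4 → ℂ) = 8 := by
    simp [Module.finrank_pi_fintype]
  exact h

theorem fin8 {N : ℕ} {X Z : AF (Cm 4) N} {k r : ℝ} (h : X = k • Z) (b : BS (Cm 4) N)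
    (hr : Z b = r) : X b = k * r := by
  rw [eval8 h b, hr]

/-- the value of the product of the two squares -/
theorem value {n n' : ℕ} (p : PMap (Cm 4) (n + 3) Y) (q : PMap (Cm 4) (n' + 3) Y) {i : p.I}
    {j : q.I} {y : Y} (hi : y ∈ p.D i) (hj : y ∈ q.D j) (g : Fin 4 → Y → ℂ) {c c' : ℝ → ℝ}
    (hr : Rad (fun m x => p.F i x m) (g 0) (g 1) y c)
    (hr' : Rad (fun m x => q.F j x m) (g 2) (g 3) y c')
    (hg : ∀ m, AnalyticAt ℂ (fun z => g m ((chartAt (Cm 4) y).symm z)) (chartAt (Cm 4) y y))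
    (b : BS (Cm 4) (4 + 1 + 1 + 1 + 1)) (D : ℂ)
    (hD : D = (Matrix.of fun m k => fderiv ℂ (fun z => g m ((chartAt (Cm 4) y).symm z))
          (chartAt (Cm 4) y y) (Pi.single k 1)).det) :
    topF q (sqF p) y b =
      kap (rho (q.F j y)) (‖g 2 y‖ ^ 2 + ‖g 3 y‖ ^ 2) c' *
        kap (rho (p.F i y)) (‖g 0 y‖ ^ 2 + ‖g 1 y‖ ^ 2) c * (Complex.normSq D * vol8 b) := by
  obtain ⟨l, hl⟩ : ∃ l : Fin 4 → LC (Cm 4), l = fun m =>
    fderiv ℂ (fun z => g m ((chartAt (Cm 4) y).symm z)) (chartAt (Cm 4) y y) := ⟨_, rfl⟩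
  have h := value0 p q hi hj g hr hr' l
    (fun m => by rw [hl]; exact (hg m).differentiableAt.hasFDerivAt)
  have hdet : (Matrix.of fun i j => l i (Pi.single j 1)).det = D := by rw [hD, hl]
  refine fin8 h b ?_
  rw [w8_apply, hdet]

end

/-- the values near a point of the radial region -/
theorem value_sec {Y : Type} [TopologicalSpace Y] [ChartedSpace (Cm 4) Y] {X : CSp} {O : Set Y}
    {v : Y → X.pt} (hv : IsOpenEmb X O v) {P Q : Bd X.pt} {G : Set X.pt} {s s' : P.ι → X.pt → ℂ}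
    {σ σ' : Q.ι → X.pt → ℂ} {x₀ : X.pt} (hF : FlipOut X O v P Q G s s' σ σ' x₀)
    {n n' : ℕ} {F : Fin (n + 3) → P.ι → Y → ℂ} {F' : Fin (n' + 3) → Q.ι → Y → ℂ}
    (hTup : Tup v P O F) (hTup' : Tup v Q (O ∩ v ⁻¹' G) F')
    (hoP : ∀ i, IsOpen {y | y ∈ O ∧ v y ∈ P.U i})
    (hoQ : ∀ j, IsOpen {y | y ∈ O ∩ v ⁻¹' G ∧ v y ∈ Q.U j})
    (b : BS (Cm 4) (4 + 1 + 1 + 1 + 1)) (w : Fin (4 + 1 + 1 + 1 + 1) → Cm 4) (hw : w = b)
    (δ : ℝ) (hδ : vol8 b = δ) {y : Y} (hyO : y ∈ O) (hyG : v y ∈ G) {i : P.ι} {j : Q.ι}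
    (hi : v y ∈ P.U i) (hj : v y ∈ Q.U j) {c c' : ℝ → ℝ}
    (hr : Rad (fun m => F m i) (fun y => s i (v y)) (fun y => s' i (v y)) y c)
    (hr' : Rad (fun m => F' m j) (fun y => σ j (v y)) (fun y => σ' j (v y)) y c') :
    ∃ r : ℝ, 0 ≤ r ∧ (0 < c (‖s i (v y)‖ ^ 2 + ‖s' i (v y)‖ ^ 2) →
      0 < c' (‖σ j (v y)‖ ^ 2 + ‖σ' j (v y)‖ ^ 2) →
      Jac v ![s i, s' i, σ j, σ' j] (chartAt (Cm 4) y) (chartAt (Cm 4) y y) ≠ 0 → 0 < r) ∧
      topF (toPMap hTup' hoQ) (sqF (toPMap hTup hoP)) y w = r * δ := by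
  subst hw
  subst hδ
  have hAt : At (chartAt (Cm 4) y) y := ⟨chart_mem_atlas _ y, mem_chart_source _ y⟩
  have hg : ∀ m, AnalyticAt ℂ (fun z => (![s i, s' i, σ j, σ' j] : Fin 4 → X.pt → ℂ) m
      (v ((chartAt (Cm 4) y).symm z))) (chartAt (Cm 4) y y) := by
    intro m
    refine (hv.hol y hyO _ hAt _).1 ?_
    fin_cases m
    · exact hF.sec.holo i _ hyG hi
    · exact hF.sec'.holo i _ hyG hi
    · exact hF.secσ.holo j _ hyG hj
    · exact hF.secσ'.holo j _ hyG hj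
  have hp : y ∈ (toPMap hTup hoP).D i := ⟨hyO, hi⟩
  have hq : y ∈ (toPMap hTup' hoQ).D j := ⟨⟨hyO, hyG⟩, hj⟩
  have h2 := rho_pos ((toPMap hTup hoP).ne i y hp)
  have h3 := rho_pos ((toPMap hTup' hoQ).ne j y hq)
  have ht : 0 ≤ ‖s i (v y)‖ ^ 2 + ‖s' i (v y)‖ ^ 2 := by positivity
  have ht' : 0 ≤ ‖σ j (v y)‖ ^ 2 + ‖σ' j (v y)‖ ^ 2 := by positivity
  refine ⟨kap (rho ((toPMap hTup' hoQ).F j y)) (‖σ j (v y)‖ ^ 2 + ‖σ' j (v y)‖ ^ 2) c' *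
    kap (rho ((toPMap hTup hoP).F i y)) (‖s i (v y)‖ ^ 2 + ‖s' i (v y)‖ ^ 2) c *
    Complex.normSq (Jac v ![s i, s' i, σ j, σ' j] (chartAt (Cm 4) y) (chartAt (Cm 4) y y)),
    mul_nonneg (mul_nonneg (kap_nonneg h3 ht' hr'.anti hr'.nonneg)
      (kap_nonneg h2 ht hr.anti hr.nonneg)) (Complex.normSq_nonneg _),
    fun h4 h5 h6 => mul_pos (mul_pos (kap_pos h3 ht' hr'.anti hr'.nonneg h5)
      (kap_pos h2 ht hr.anti hr.nonneg h4)) (Complex.normSq_pos.2 h6), ?_⟩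
  rw [mul_assoc (kap (rho ((toPMap hTup' hoQ).F j y)) (‖σ j (v y)‖ ^ 2 + ‖σ' j (v y)‖ ^ 2) c' *
    kap (rho ((toPMap hTup hoP).F i y)) (‖s i (v y)‖ ^ 2 + ‖s' i (v y)‖ ^ 2) c)]
  exact value (toPMap hTup hoP) (toPMap hTup' hoQ) hp hq
    (fun m y => (![s i, s' i, σ j, σ' j] : Fin 4 → X.pt → ℂ) m (v y)) hr hr' hg b _ rfl

theorem cont_of {Y : Type} [TopologicalSpace Y] [ChartedSpace (Cm 4) Y] {X : CSp} {O : Set Y}
    {v : Y → X.pt} (hv : IsOpenEmb X O v) {y : Y} (hy : y ∈ O) {g : X.pt → ℂ}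
    (hg : X.Hol g (v y)) : ContinuousAt (fun y => g (v y)) y := by
  set e := chartAt (Cm 4) y with he
  have hAt : At e y := ⟨chart_mem_atlas _ y, mem_chart_source _ y⟩
  have h1 : ContinuousAt (fun z => g (v (e.symm z))) (e y) := ((hv.hol y hy e hAt g).1 hg).continuousAt
  have h2 : ContinuousAt (fun x => (fun z => g (v (e.symm z))) (e x)) y :=
    ContinuousAt.comp (g := fun z => g (v (e.symm z))) (f := e) h1 (e.continuousAt hAt.2)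
  refine h2.congr ?_
  filter_upwards [e.open_source.mem_nhds hAt.2] with x hx
  rw [e.left_inv hx]

theorem sec_zero {X : CSp} {V : Set X.pt} {L : Bd X.pt} {s : L.ι → X.pt → ℂ}
    (hs : IsSecx X V L s) {x : X.pt} (hx : x ∈ V) (h : x ∈ Zs L s) {i : L.ι} (hi : x ∈ L.U i) :
    s i x = 0 := by
  obtain ⟨j, hj, h0⟩ := h
  rw [hs.change i j x hx hi hj, h0, mul_zero]

/-- `StF` from `StF4` -/
theorem stF_of (h4 : StF4) : StF := by
  intro Y _ _ _ _ _ X O v hv hdim P Q G s s' σ σ' x₀ hF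
  have hman : IsManifold 𝓘(ℝ, Cm 4) ∞ Y := isManifold_real
  have hpa : PosAtlas (Cm 4) Y := posAtlas_complex
  obtain ⟨n, F, C₀, hTup, hC₀O, hC₀, hz, hC⟩ := h4 Y X O v hv hdim P Q G s s' σ σ' x₀ hF
  have hoP : ∀ i, IsOpen {y | y ∈ O ∧ v y ∈ P.U i} := fun i =>
    hv.cont.isOpen_inter_preimage hv.isOpen (hF.lbP.isOpen i)
  have hOG : IsOpen (O ∩ v ⁻¹' G) := hv.cont.isOpen_inter_preimage hv.isOpen hF.isOpen
  have hoQ : ∀ j, IsOpen {y | y ∈ O ∩ v ⁻¹' G ∧ v y ∈ Q.U j} := fun j =>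
    (hv.cont.mono inter_subset_left).isOpen_inter_preimage hOG (hF.lbQ.isOpen j)
  have hsupp : (toPMap hTup hoP).Supp C₀ :=
    supp_toPMap hTup hoP (fun y _ => hF.lbP.cover (v y)) hC₀.isClosed hC₀O hz
  obtain ⟨b⟩ := exists_basis8
  obtain ⟨w, hw⟩ : ∃ w : Fin (4 + 1 + 1 + 1 + 1) → Cm 4, w = b := ⟨_, rfl⟩
  obtain ⟨δ, hδ⟩ : ∃ δ : ℝ, vol8 b = δ := ⟨_, rfl⟩
  have hδ0 : δ ≠ 0 := hδ ▸ vol8_basis_ne b
  obtain ⟨P0⟩ : Nonempty (Pou (Cm 4) Y) := exists_pou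
  have key : ∀ C ⊆ O, IsCompact C → Disjoint (v '' C) (G ∩ Zs Q σ ∩ Zs Q σ') →
      ∃ T : GF (Cm 4) 4 Y → ℝ,
        (∀ a b : GF (Cm 4) 4 Y, (∀ y, SmAt a y) → (∀ y, SmAt b y) → T (a + b) = T a + T b) ∧
        (∀ (c : ℝ) (a : GF (Cm 4) 4 Y), (∀ y, SmAt a y) → T (c • a) = c * T a) ∧
        (∀ β : GF (Cm 4) 3 Y, (∀ y, SmAt β y) → T (dF β) = 0) ∧
        (∀ a : GF (Cm 4) 4 Y, (∀ y, SmAt a y) → (∀ y ∉ C, a y = 0) → T a = 0) ∧
        T (sqF (toPMap hTup hoP)) ≠ 0 := by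
    intro C hCO hCc hdis
    obtain ⟨n', F', C', hTup', hC'sub, hC'c, hC'C, hz', hrad, y₀, hy₀O, hvy₀, i, j, c, c', hi, hj,
      hr, hr', hjac⟩ := hC C hCO hCc hdis
    have hsupp' : (toPMap hTup' hoQ).Supp C' :=
      supp_toPMap hTup' hoQ (fun y _ => hF.lbQ.cover (v y)) hC'c.isClosed hC'sub hz'
    refine exists_T' volume P0 b (toPMap hTup hoP) (toPMap hTup' hoQ) hsupp hsupp' hC'C δ hδ0
      w hw ?_ ?_
    · rintro y ⟨hy, hy'⟩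
      obtain ⟨i, j, c, c', hi, hj, hr, hr'⟩ := hrad y ⟨hy, hy'⟩
      obtain ⟨r, h1, -, h3⟩ := value_sec hv hF hTup hTup' hoP hoQ b w hw δ hδ (hC'sub hy').1
        (hC'sub hy').2 hi hj hr hr'
      exact ⟨r, h1, h3⟩
    · have hx₀G : v y₀ ∈ G := by rw [hvy₀]; exact hF.mem.1.1
      have hi' : v y₀ ∈ P.U i := by rw [hvy₀]; exact hi
      have hj' : v y₀ ∈ Q.U j := by rw [hvy₀]; exact hj
      have e1 : s i (v y₀) = 0 := by
        rw [hvy₀]; exact sec_zero hF.sec hF.mem.1.1 hF.zero.1 hi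
      have e2 : s' i (v y₀) = 0 := by
        rw [hvy₀]; exact sec_zero hF.sec' hF.mem.1.1 hF.zero.2 hi
      have e3 : σ j (v y₀) = 0 := by
        rw [hvy₀]; exact sec_zero hF.secσ hF.mem.1.1 hF.mem.1.2 hj
      have e4 : σ' j (v y₀) = 0 := by
        rw [hvy₀]; exact sec_zero hF.secσ' hF.mem.1.1 hF.mem.2 hj
      have c1 := cont_of hv hy₀O (hF.sec.holo i _ hx₀G hi')
      have c2 := cont_of hv hy₀O (hF.sec'.holo i _ hx₀G hi')
      have c3 := cont_of hv hy₀O (hF.secσ.holo j _ hx₀G hj')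
      have c4 := cont_of hv hy₀O (hF.secσ'.holo j _ hx₀G hj')
      have p1 : ∀ᶠ y in 𝓝 y₀, 0 < c (‖s i (v y)‖ ^ 2 + ‖s' i (v y)‖ ^ 2) := by
        have h5 : ContinuousAt (fun y => c (‖s i (v y)‖ ^ 2 + ‖s' i (v y)‖ ^ 2)) y₀ :=
          ContinuousAt.comp (g := c) hr.smooth.continuous.continuousAt
            ((c1.norm.pow 2).add (c2.norm.pow 2))
        refine h5.eventually (lt_mem_nhds ?_)
        show 0 < c (‖s i (v y₀)‖ ^ 2 + ‖s' i (v y₀)‖ ^ 2)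
        rw [e1, e2]
        simpa using hr.pos
      have p2 : ∀ᶠ y in 𝓝 y₀, 0 < c' (‖σ j (v y)‖ ^ 2 + ‖σ' j (v y)‖ ^ 2) := by
        have h5 : ContinuousAt (fun y => c' (‖σ j (v y)‖ ^ 2 + ‖σ' j (v y)‖ ^ 2)) y₀ :=
          ContinuousAt.comp (g := c') hr'.smooth.continuous.continuousAt
            ((c3.norm.pow 2).add (c4.norm.pow 2))
        refine h5.eventually (lt_mem_nhds ?_)
        show 0 < c' (‖σ j (v y₀)‖ ^ 2 + ‖σ' j (v y₀)‖ ^ 2)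
        rw [e3, e4]
        simpa using hr'.pos
      obtain ⟨V, hV, hVo, hyV⟩ := mem_nhds_iff.1
        ((Rad.eventually hr).and ((Rad.eventually hr').and (p1.and p2)))
      have hW : IsOpen (v '' (V ∩ O)) := hv.isOpenMap _ inter_subset_right (hVo.inter hv.isOpen)
      obtain ⟨y, hyO, ⟨⟨⟨y', ⟨hy'V, hy'O⟩, hyy⟩, hyG⟩, hyi, hyj⟩, hJ⟩ := hjac _ hW
        ⟨y₀, ⟨hyV, hy₀O⟩, hvy₀⟩
      have hyy' : y' = y := hv.inj hy'O hyO hyy
      subst hyy'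
      obtain ⟨hr1, hr2, hp1, hp2⟩ := hV hy'V
      obtain ⟨r, -, h1, h3⟩ := value_sec hv hF hTup hTup' hoP hoQ b w hw δ hδ hyO hyG hyi hyj
        hr1 hr2
      exact ⟨y', r, h1 hp1 hp2 (hJ (chartAt (Cm 4) y') ⟨chart_mem_atlas _ y', mem_chart_source _ y'⟩),
        h3⟩
  have hη : ∀ y, SmAt (sqF (toPMap hTup hoP)) y ∧ dF (sqF (toPMap hTup hoP)) y = 0 :=
    fun y => ⟨smAt_sqF hsupp y, dF_sqF hsupp y⟩
  have hη0 : ∀ y ∉ C₀, sqF (toPMap hTup hoP) y = 0 := fun y hy => sqF_zero hsupp hy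
  obtain ⟨η, hηe⟩ : ∃ η : GF (Cm 4) 4 Y, η = sqF (toPMap hTup hoP) := ⟨_, rfl⟩
  rw [← hηe] at key hη hη0
  exact ⟨η, hη, ⟨C₀, hC₀O, hC₀, hη0⟩, key⟩

end Vale.Agent.P277.H60
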