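import Vale.Agent.P277.H60.Vol
import Vale.Agent.P277.H60.Iface4

/-!
# P277: the top degree form and its integral, general part
-/

set_option maxSynthPendingDepth 3

open Module Set Function Filter MeasureTheory
open scoped ContDiff Topology ComplexConjugate Manifold
open Vale.Agent.P267.H175
open Vale.Agent.P267.H928.Int (Pou PosAtlas)

noncomputable section

namespace Vale.Agent.P277.H60

section
variable {Y : Type} [TopologicalSpace Y]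

theorem Rad.eventually {n : ℕ} {F : Fin (n + 3) → Y → ℂ} {f f' : Y → ℂ} {y : Y} {c : ℝ → ℝ}
    (h : Rad F f f' y c) : ∀ᶠ x in 𝓝 y, Rad F f f' x c := by
  filter_upwards [eventually_eventually_nhds.2 h.eq] with x hx
  exact ⟨h.smooth, h.anti, h.nonneg, h.pos, hx⟩

end

/-- the coefficient -/
def kap (ρ t : ℝ) (c : ℝ → ℝ) : ℝ := 8 / ρ ^ 3 * (c t ^ 2 - 2 * t * c t * deriv c t)

theorem kap_nonneg {ρ t : ℝ} {c : ℝ → ℝ} (hρ : 0 < ρ) (ht : 0 ≤ t) (h1 : Antitone c)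
    (h2 : ∀ t, 0 ≤ c t) : 0 ≤ kap ρ t c := by
  have h3 : deriv c t ≤ 0 := h1.deriv_nonpos
  have h4 : 0 ≤ t * c t * (-deriv c t) := mul_nonneg (mul_nonneg ht (h2 t)) (by linarith)
  refine mul_nonneg (by positivity) ?_
  nlinarith [sq_nonneg (c t)]

theorem kap_pos {ρ t : ℝ} {c : ℝ → ℝ} (hρ : 0 < ρ) (ht : 0 ≤ t) (h1 : Antitone c)
    (h2 : ∀ t, 0 ≤ c t) (h : 0 < c t) : 0 < kap ρ t c := by
  have h3 : deriv c t ≤ 0 := h1.deriv_nonpos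
  have h4 : 0 ≤ t * c t * (-deriv c t) := mul_nonneg (mul_nonneg ht (h2 t)) (by linarith)
  refine mul_pos (by positivity) ?_
  nlinarith [sq_pos_of_pos h]

theorem eval8 {E : Type*} [NormedAddCommGroup E] [NormedSpace ℝ E] {N : ℕ}
    {x X : E [⋀^Fin N]→L[ℝ] ℝ} {k : ℝ} (h : x = k • X) (b : Basis (Fin N) ℝ E) :
    x b = k * X b := by
  rw [h]
  rfl

theorem smul_smul8 {E : Type*} [NormedAddCommGroup E] [NormedSpace ℝ E] {N : ℕ} (k k' : ℝ)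
    (X : E [⋀^Fin N]→L[ℝ] ℝ) : k • k' • X = (k * k') • X := smul_smul k k' X

section
variable {E : Type*} [NormedAddCommGroup E] [NormedSpace ℝ E]
variable {Y : Type*} [TopologicalSpace Y] [ChartedSpace E Y]

variable (E Y) in
/-- the constant function -/
def oneF : Y → E [⋀^Fin 0]→L[ℝ] ℝ := fun _ => one0 E

/-- change of the (equal) degree -/
def castF {k k' : ℕ} (h : k = k') (a : Y → E [⋀^Fin k]→L[ℝ] ℝ) : Y → E [⋀^Fin k']→L[ℝ] ℝ :=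
  fun y => castf h (a y)

theorem smAt_castF {k k' : ℕ} (h : k = k') {a : Y → E [⋀^Fin k]→L[ℝ] ℝ} {y : Y}
    (ha : SmAt a y) : SmAt (castF h a) y := by
  subst h
  exact ha

theorem dF_castF {k k' : ℕ} (h : k = k') {a : Y → E [⋀^Fin k]→L[ℝ] ℝ} {y : Y}
    (ha : dF a y = 0) : dF (castF h a) y = 0 := by
  subst h
  exact ha

/-- the square of the Fubini-Study form -/
def sqF {n : ℕ} (p : PMap E n Y) : Y → E [⋀^Fin 4]→L[ℝ] ℝ :=
  castF (k := 0 + 1 + 1 + 1 + 1) rfl (p.W (k := 0 + 1 + 1) (p.W (k := 0) (oneF E Y)))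

/-- the product with the square of the Fubini-Study form -/
def topF {n : ℕ} (q : PMap E n Y) (a : Y → E [⋀^Fin 4]→L[ℝ] ℝ) :
    Y → E [⋀^Fin (4 + 1 + 1 + 1 + 1)]→L[ℝ] ℝ :=
  q.W (k := 4 + 1 + 1) (q.W (k := 4) a)

theorem smAt_oneF (y : Y) : SmAt (oneF E Y) y := smAt_const 1 y

theorem sqF_zero {n : ℕ} {p : PMap E n Y} {K : Set Y} (hK : p.Supp K) {y : Y} (hy : y ∉ K) :
    sqF p y = 0 := by
  rw [sqF, castF, hK.zero _ _ y hy, castf_zero]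

theorem topF_add {n : ℕ} (q : PMap E n Y) (a b : Y → E [⋀^Fin 4]→L[ℝ] ℝ) :
    topF q (a + b) = topF q a + topF q b := by
  rw [topF, topF, topF, q.W_add, q.W_add]

theorem topF_smul {n : ℕ} (q : PMap E n Y) (c : ℝ) (a : Y → E [⋀^Fin 4]→L[ℝ] ℝ) :
    topF q (c • a) = c • topF q a := by
  rw [topF, topF, q.W_smul, q.W_smul]

theorem topF_zero {n : ℕ} (q : PMap E n Y) {a : Y → E [⋀^Fin 4]→L[ℝ] ℝ} {y : Y} (h : a y = 0) :
    topF q a y = 0 := q.W_of_zero (q.W_of_zero h)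

theorem topF_zero' {n : ℕ} {q : PMap E n Y} {K : Set Y} (hK : q.Supp K)
    (a : Y → E [⋀^Fin 4]→L[ℝ] ℝ) {y : Y} (h : y ∉ K) : topF q a y = 0 := hK.zero 4 a y h

variable [IsManifold 𝓘(ℝ, E) ∞ Y]

theorem smAt_sqF {n : ℕ} {p : PMap E n Y} {K : Set Y} (hK : p.Supp K) (y : Y) :
    SmAt (sqF p) y := smAt_castF _ (hK.smAt smAt_oneF y)

theorem dF_sqF {n : ℕ} {p : PMap E n Y} {K : Set Y} (hK : p.Supp K) (y : Y) :
    dF (sqF p) y = 0 := by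
  refine dF_castF _ ?_
  rw [hK.dF smAt_oneF]
  exact p.W_of_zero (p.W_of_zero (dF_const 1 y))

theorem smAt_topF {n : ℕ} {q : PMap E n Y} {K : Set Y} (hK : q.Supp K)
    {a : Y → E [⋀^Fin 4]→L[ℝ] ℝ} (ha : ∀ y, SmAt a y) (y : Y) : SmAt (topF q a) y := hK.smAt ha y

theorem topF_dF {n : ℕ} {q : PMap E n Y} {K : Set Y} (hK : q.Supp K)
    {β : Y → E [⋀^Fin 3]→L[ℝ] ℝ} (hβ : ∀ y, SmAt β y) :
    topF q (dF β) = dF (q.W (q.W β)) := by
  funext y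
  exact (hK.dF hβ y).symm

/-- the functional -/
theorem exists_T [FiniteDimensional ℝ E] [MeasurableSpace E] [BorelSpace E] [PosAtlas E Y]
    [T2Space Y] [CompactSpace Y] (μ : Measure E) [μ.IsAddHaarMeasure] (P : Pou E Y)
    (b : Basis (Fin (4 + 1 + 1 + 1 + 1)) ℝ E) {n n' : ℕ} (p : PMap E n Y) (q : PMap E n' Y)
    {K K' C : Set Y} (hK : p.Supp K) (hK' : q.Supp K') (hC : Disjoint K' C) (δ : ℝ)
    (h0 : ∀ y ∈ K ∩ K', 0 ≤ δ * topF q (sqF p) y b) (h1 : ∃ y, δ * topF q (sqF p) y b ≠ 0) :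
    ∃ T : (Y → E [⋀^Fin 4]→L[ℝ] ℝ) → ℝ,
      (∀ a b : Y → E [⋀^Fin 4]→L[ℝ] ℝ, (∀ y, SmAt a y) → (∀ y, SmAt b y) → T (a + b) = T a + T b) ∧
      (∀ (c : ℝ) (a : Y → E [⋀^Fin 4]→L[ℝ] ℝ), (∀ y, SmAt a y) → T (c • a) = c * T a) ∧
      (∀ β : Y → E [⋀^Fin 3]→L[ℝ] ℝ, (∀ y, SmAt β y) → T (dF β) = 0) ∧
      (∀ a : Y → E [⋀^Fin 4]→L[ℝ] ℝ, (∀ y, SmAt a y) → (∀ y ∉ C, a y = 0) → T a = 0) ∧
      T (sqF p) ≠ 0 := by
  let _ : MeasurableSpace Y := borel Y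
  have : BorelSpace Y := ⟨rfl⟩
  refine ⟨fun a => II μ P b (topF q a), ?_, ?_, ?_, ?_, ?_⟩
  · intro a a' ha ha'
    show II μ P b (topF q (a + a')) = _
    rw [topF_add, II_add μ P b (smAt_topF hK' ha) (smAt_topF hK' ha')]
  · intro r a ha
    show II μ P b (topF q (r • a)) = _
    rw [topF_smul, II_smul]
  · intro β hβ
    show II μ P b (topF q (dF β)) = _
    rw [topF_dF hK' hβ]
    exact II_dF μ P b (hK'.smAt hβ)
  · intro a ha h0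
    refine II_zero μ P b fun y => ?_
    by_cases hy : y ∈ C
    · exact topF_zero' hK' a (fun h => Set.disjoint_left.1 hC h hy)
    · exact topF_zero q (h0 y hy)
  · refine II_pos μ P b (smAt_topF hK' (smAt_sqF hK)) δ ?_ h1
    intro y
    by_cases hy' : y ∈ K'
    · by_cases hy : y ∈ K
      · exact h0 y ⟨hy, hy'⟩
      · rw [topF_zero q (sqF_zero hK hy)]
        simp
    · rw [topF_zero' hK' _ hy']
      simp

/-- the functional -/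
theorem exists_T' [FiniteDimensional ℝ E] [MeasurableSpace E] [BorelSpace E] [PosAtlas E Y]
    [T2Space Y] [CompactSpace Y] (μ : Measure E) [μ.IsAddHaarMeasure] (P : Pou E Y)
    (b : Basis (Fin (4 + 1 + 1 + 1 + 1)) ℝ E) {n n' : ℕ} (p : PMap E n Y) (q : PMap E n' Y)
    {K K' C : Set Y} (hK : p.Supp K) (hK' : q.Supp K') (hC : Disjoint K' C) (δ : ℝ) (hδ : δ ≠ 0)
    (w : Fin (4 + 1 + 1 + 1 + 1) → E) (hw : w = b)
    (h0 : ∀ y ∈ K ∩ K', ∃ r : ℝ, 0 ≤ r ∧ topF q (sqF p) y w = r * δ)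
    (h1 : ∃ (y : Y) (r : ℝ), 0 < r ∧ topF q (sqF p) y w = r * δ) :
    ∃ T : (Y → E [⋀^Fin 4]→L[ℝ] ℝ) → ℝ,
      (∀ a b : Y → E [⋀^Fin 4]→L[ℝ] ℝ, (∀ y, SmAt a y) → (∀ y, SmAt b y) → T (a + b) = T a + T b) ∧
      (∀ (c : ℝ) (a : Y → E [⋀^Fin 4]→L[ℝ] ℝ), (∀ y, SmAt a y) → T (c • a) = c * T a) ∧
      (∀ β : Y → E [⋀^Fin 3]→L[ℝ] ℝ, (∀ y, SmAt β y) → T (dF β) = 0) ∧
      (∀ a : Y → E [⋀^Fin 4]→L[ℝ] ℝ, (∀ y, SmAt a y) → (∀ y ∉ C, a y = 0) → T a = 0) ∧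
      T (sqF p) ≠ 0 := by
  subst hw
  refine exists_T μ P b p q hK hK' hC δ ?_ ?_
  · intro y hy
    obtain ⟨r, h2, h3⟩ := h0 y hy
    rw [h3]
    have : δ * (r * δ) = r * δ ^ 2 := by ring
    rw [this]
    positivity
  · obtain ⟨y, r, h2, h3⟩ := h1
    refine ⟨y, ?_⟩
    rw [h3]
    exact mul_ne_zero hδ (mul_ne_zero h2.ne' hδ)

end

section
variable {E : Type*} [NormedAddCommGroup E] [NormedSpace ℂ E] [NormedSpace ℝ E]
  [IsScalarTower ℝ ℂ E]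
variable {Y : Type} [TopologicalSpace Y] [ChartedSpace E Y]

theorem WW_rad {n k : ℕ} (p : PMap E (n + 3) Y) {i : p.I} {y : Y} (hi : y ∈ p.D i)
    {f f' : Y → ℂ} {c : ℝ → ℝ} (hr : Rad (fun m x => p.F i x m) f f' y c) {l l' : E →L[ℂ] ℂ}
    (hf : HasFDerivAt (fun z => f ((chartAt E y).symm z)) l (chartAt E y y))
    (hf' : HasFDerivAt (fun z => f' ((chartAt E y).symm z)) l' (chartAt E y y))
    (a : Y → E [⋀^Fin k]→L[ℝ] ℝ) :
    p.W (p.W a) y = kap (rho (p.F i y)) (‖f y‖ ^ 2 + ‖f' y‖ ^ 2) c •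
      w4 (l.restrictScalars ℝ) (l'.restrictScalars ℝ) (a y) := by
  set e := chartAt E y with he
  have hea : e ∈ atlas E Y := chart_mem_atlas _ y
  have hey : y ∈ e.source := mem_chart_source _ y
  have h1 : e.symm (e y) = y := e.left_inv hey
  have h2 : Filter.Tendsto e.symm (𝓝 (e y)) (𝓝 y) := by
    have := e.symm.continuousAt (e.map_source hey)
    rwa [ContinuousAt, h1] at this
  have h3 := fsF_rad (F := fun z => p.F i (e.symm z)) (f := fun z => f (e.symm z))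
    (f' := fun z => f' (e.symm z)) (c := c) (z := e y)
    ((p.smooth i _ hi e hea hey).differentiableAt (by simp))
    (by
      show p.F i (e.symm (e y)) ≠ 0
      rw [h1]
      exact p.ne _ _ hi)
    (hf.restrictScalars ℝ).differentiableAt (hf'.restrictScalars ℝ).differentiableAt
    ((hr.smooth.contDiffAt (x := ‖f (e.symm (e y))‖ ^ 2 + ‖f' (e.symm (e y))‖ ^ 2)).differentiableAt
      (by simp)) (h2.eventually hr.eq) (a y)
  rw [PMap.W_apply, PMap.W_apply, p.B_eq hi, ← he, h3, (hf.restrictScalars ℝ).fderiv,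
    (hf'.restrictScalars ℝ).fderiv, h1]
  rfl

theorem value1 {n' : ℕ} (q : PMap E (n' + 3) Y)
    {j : q.I} {y : Y} (hj : y ∈ q.D j) (f f' : Y → ℂ) {c' : ℝ → ℝ}
    (hr' : Rad (fun m x => q.F j x m) f f' y c') {l l' : E →L[ℂ] ℂ}
    (hf : HasFDerivAt (fun z => f ((chartAt E y).symm z)) l (chartAt E y y))
    (hf' : HasFDerivAt (fun z => f' ((chartAt E y).symm z)) l' (chartAt E y y))
    (a : Y → E [⋀^Fin 4]→L[ℝ] ℝ) : topF q a y =
      (kap (rho (q.F j y)) (‖f y‖ ^ 2 + ‖f' y‖ ^ 2) c') •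
        w4 (l.restrictScalars ℝ) (l'.restrictScalars ℝ) (a y) :=
  WW_rad q hj hr' hf hf' a

theorem value2 {n : ℕ} (p : PMap E (n + 3) Y) {i : p.I}
    {y : Y} (hi : y ∈ p.D i) (f f' : Y → ℂ) {c : ℝ → ℝ}
    (hr : Rad (fun m x => p.F i x m) f f' y c) {l l' : E →L[ℂ] ℂ}
    (hf : HasFDerivAt (fun z => f ((chartAt E y).symm z)) l (chartAt E y y))
    (hf' : HasFDerivAt (fun z => f' ((chartAt E y).symm z)) l' (chartAt E y y)) :
    sqF p y = (kap (rho (p.F i y)) (‖f y‖ ^ 2 + ‖f' y‖ ^ 2) c) •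
        w4a (l.restrictScalars ℝ) (l'.restrictScalars ℝ) := by
  rw [sqF, castF, WW_rad p hi hr hf hf' (oneF E Y), castf_smul]
  rfl

omit [NormedSpace ℂ E] [IsScalarTower ℝ ℂ E] in
theorem comb {l0 l1 l2 l3 : E →L[ℝ] ℂ} {k k' : ℝ} {x : E [⋀^Fin 4]→L[ℝ] ℝ}
    {X : E [⋀^Fin (4 + 1 + 1 + 1 + 1)]→L[ℝ] ℝ} (hx : x = k • w4a l0 l1) (hX : X = k' • w4 l2 l3 x) :
    X = (k' * k) • w4 l2 l3 (w4a l0 l1) := by
  rw [hX, hx, w4_smul, smul_smul8]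

theorem w8_def (l : Fin 4 → (E →L[ℂ] ℂ)) : w4 ((l 2).restrictScalars ℝ) ((l 3).restrictScalars ℝ)
    (w4a ((l 0).restrictScalars ℝ) ((l 1).restrictScalars ℝ)) = w8 l := rfl

theorem value0 {n n' : ℕ} (p : PMap E (n + 3) Y) (q : PMap E (n' + 3) Y) {i : p.I}
    {j : q.I} {y : Y} (hi : y ∈ p.D i) (hj : y ∈ q.D j) (g : Fin 4 → Y → ℂ) {c c' : ℝ → ℝ}
    (hr : Rad (fun m x => p.F i x m) (g 0) (g 1) y c)
    (hr' : Rad (fun m x => q.F j x m) (g 2) (g 3) y c') (l : Fin 4 → (E →L[ℂ] ℂ))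
    (hg : ∀ m, HasFDerivAt (fun z => g m ((chartAt E y).symm z)) (l m) (chartAt E y y)) :
    topF q (sqF p) y =
      (kap (rho (q.F j y)) (‖g 2 y‖ ^ 2 + ‖g 3 y‖ ^ 2) c' *
        kap (rho (p.F i y)) (‖g 0 y‖ ^ 2 + ‖g 1 y‖ ^ 2) c) • w8 l := by
  have h := comb (value2 p hi (g 0) (g 1) hr (hg 0) (hg 1))
    (value1 q hj (g 2) (g 3) hr' (hg 2) (hg 3) (sqF p))
  rw [w8_def] at h
  exact h

end

end Vale.Agent.P277.H60
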