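import Vale.Agent.P277.H60.Loc
import Vale.Agent.P267.H928.Int.Cplx

/-!
# P277: integration of forms
-/

set_option maxSynthPendingDepth 3
set_option linter.unusedSectionVars false

open Module Set Function MeasureTheory Measure Filter
open scoped ContDiff Topology ComplexConjugate Manifold ENNReal
open Vale.Agent.P267.H928.Int Vale.Agent.P267.H175

noncomputable section

namespace Vale.Agent.P277.H60

variable {E : Type*} [NormedAddCommGroup E] [NormedSpace ℝ E]
variable {M : Type*} [TopologicalSpace M] [ChartedSpace E M]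

/-- a function with values in alternating forms as a form -/
abbrev toForm {k : ℕ} (a : M → E [⋀^Fin k]→L[ℝ] ℝ) : Form E ℝ k M := a

section bridge

variable [IsManifold 𝓘(ℝ, E) ∞ M]

theorem mfd_eq {e : OpenPartialHomeomorph M E} (he : e ∈ atlas E M) {z : E} (hz : z ∈ e.target) :
    mfd e.symm z = fderiv ℝ (fun y => chartAt E (e.symm z) (e.symm y)) z := by
  have h1 : MDifferentiableAt 𝓘(ℝ, E) 𝓘(ℝ, E) e.symm z := mdiffAt_symm he hz
  have h2 : mfd e.symm z = fderivWithin ℝ (writtenInExtChartAt 𝓘(ℝ, E) 𝓘(ℝ, E) z e.symm)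
    (range 𝓘(ℝ, E)) (extChartAt 𝓘(ℝ, E) z z) := h1.mfderiv
  rw [h2]
  simp only [writtenInExtChartAt, Function.comp_def, mfld_simps]
  rw [fderivWithin_univ]
  rfl

theorem pull_eq_loc {k : ℕ} (a : M → E [⋀^Fin k]→L[ℝ] ℝ) {e : OpenPartialHomeomorph M E}
    (he : e ∈ atlas E M) {z : E} (hz : z ∈ e.target) :
    pull e.symm (toForm a) z = loc e a z := by
  rw [pull_eq, mfd_eq he hz]
  rfl

variable [FiniteDimensional ℝ E]

theorem cForm_of_smAt {k : ℕ} {a : M → E [⋀^Fin k]→L[ℝ] ℝ} (ha : ∀ y, SmAt a y) :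
    CForm 1 (toForm a) := by
  intro e he z hz
  have h1 : ContDiffAt ℝ ∞ (loc e a) z := by
    have := (smAt_iff he (e.map_target hz)).1 (ha (e.symm z))
    rwa [e.right_inv hz] at this
  refine ContDiffAt.contDiffWithinAt ?_
  refine (h1.of_le (by simp)).congr_of_eventuallyEq ?_
  filter_upwards [e.open_target.mem_nhds hz] with y hy
  exact pull_eq_loc a he hy

omit [FiniteDimensional ℝ E] in
theorem isExt_of_smAt {k : ℕ} {a : M → E [⋀^Fin k]→L[ℝ] ℝ} (ha : ∀ y, SmAt a y) :
    IsExt (toForm a) (toForm (dF a)) := by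
  intro e he z hz
  rw [pull_eq_loc _ he hz, loc_dF he hz (ha _)]
  apply Filter.EventuallyEq.extDeriv_eq
  filter_upwards [e.open_target.mem_nhds hz] with y hy
  exact pull_eq_loc a he hy

end bridge

section integral

variable [FiniteDimensional ℝ E] [MeasurableSpace E] [BorelSpace E] [IsManifold 𝓘(ℝ, E) ∞ M]
  [PosAtlas E M] [MeasurableSpace M] [BorelSpace M] [T2Space M] [CompactSpace M]
  (μ : Measure E) [μ.IsAddHaarMeasure] (P : Pou E M)

theorem isOpenPosMeasure_meas : IsOpenPosMeasure (P.meas μ) := by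
  refine ⟨fun U hU hne h0 => ?_⟩
  obtain ⟨x, hx⟩ := hne
  set e := chartAt E x with he'
  have he : e ∈ atlas E M := chart_mem_atlas E x
  have hUs : IsOpen (U ∩ e.source) := hU.inter e.open_source
  have hm : MeasurableSet (U ∩ e.source) := hUs.measurableSet
  have h1 := P.lintegral_meas_chart μ he (g := (U ∩ e.source).indicator fun _ => 1)
    (measurable_const.indicator hm) (fun y hy => indicator_of_notMem (fun h => hy h.2) _)
  rw [lintegral_indicator_const hm, one_mul] at h1
  have h2 : P.meas μ (U ∩ e.source) = 0 := measure_mono_null inter_subset_left h0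
  rw [h2] at h1
  have hT : IsOpen (e.target ∩ e.symm ⁻¹' U) := e.isOpen_inter_preimage_symm hU
  have h3 : ∫⁻ z in e.target ∩ e.symm ⁻¹' U, ENNReal.ofReal (P.w e z) ∂μ = 0 := by
    refine le_antisymm ?_ zero_le
    rw [h1, ← lintegral_indicator hT.measurableSet, ← lintegral_indicator e.open_target.measurableSet]
    refine lintegral_mono fun z => ?_
    by_cases hz : z ∈ e.target ∩ e.symm ⁻¹' U
    · rw [indicator_of_mem hz, indicator_of_mem hz.1,
        indicator_of_mem (show e.symm z ∈ U ∩ e.source from ⟨hz.2, e.map_target hz.1⟩), mul_one]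
    · rw [indicator_of_notMem hz]; exact zero_le
  have hmeas : AEMeasurable (fun z => ENNReal.ofReal (P.w e z))
      (μ.restrict (e.target ∩ e.symm ⁻¹' U)) :=
    (P.aemeas_w μ he).mono_measure (Measure.restrict_mono inter_subset_left le_rfl)
  rw [lintegral_eq_zero_iff' hmeas] at h3
  have h4 : ∀ᵐ z ∂(μ.restrict (e.target ∩ e.symm ⁻¹' U)), False := by
    filter_upwards [h3, ae_restrict_mem hT.measurableSet] with z hz hz'
    have := P.w_pos he hz'.1
    simp only [Pi.zero_apply, ENNReal.ofReal_eq_zero] at hz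
    exact absurd hz (not_le.2 this)
  have h5 : μ (e.target ∩ e.symm ⁻¹' U) = 0 := by
    rw [Filter.eventually_false_iff_eq_bot, ae_eq_bot] at h4
    rwa [Measure.restrict_eq_zero] at h4
  have h6 : (e.target ∩ e.symm ⁻¹' U).Nonempty := ⟨e x, mem_chart_target E x, by
    rw [mem_preimage, (chartAt E x).left_inv (mem_chart_source E x)]; exact hx⟩
  exact (hT.measure_pos μ h6).ne' h5

variable {N : ℕ} (b : Basis (Fin N) ℝ E)

/-- the integral of a form of top degree -/
def II (a : M → E [⋀^Fin N]→L[ℝ] ℝ) : ℝ := intForm μ P b (toForm a)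

theorem continuous_quo_cf {a : M → E [⋀^Fin N]→L[ℝ] ℝ} (ha : ∀ y, SmAt a y) :
    Continuous (P.quo (fun e z => cf b e (toForm a) z)) :=
  P.continuous_quo (isDens_cf b _) ((cForm_of_smAt ha).contForm.dcont b)

theorem integrable_cf {a : M → E [⋀^Fin N]→L[ℝ] ℝ} (ha : ∀ y, SmAt a y) :
    Integrable (P.quo (fun e z => cf b e (toForm a) z)) (P.meas μ) :=
  P.integrable_quo μ (isDens_cf b _) ((cForm_of_smAt ha).contForm.dcont b) isCompact_univ
    (fun _ _ _ _ h => absurd (mem_univ _) h)

theorem II_add {a a' : M → E [⋀^Fin N]→L[ℝ] ℝ} (ha : ∀ y, SmAt a y) (ha' : ∀ y, SmAt a' y) :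
    II μ P b (a + a') = II μ P b a + II μ P b a' := by
  have h := P.integ_add μ (integrable_cf μ P b ha) (integrable_cf μ P b ha')
  rw [II, II, II, intForm, intForm, intForm, ← h]
  rfl

theorem II_smul (c : ℝ) (a : M → E [⋀^Fin N]→L[ℝ] ℝ) : II μ P b (c • a) = c * II μ P b a := by
  have h := P.integ_smul μ c (fun e z => cf b e (toForm a) z)
  rw [II, II, intForm, intForm, ← smul_eq_mul, ← h]
  rfl

theorem II_pos {a : M → E [⋀^Fin N]→L[ℝ] ℝ} (ha : ∀ y, SmAt a y) (δ : ℝ)
    (h0 : ∀ y, 0 ≤ δ * a y b)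
    (h1 : ∃ y, δ * a y b ≠ 0) : II μ P b a ≠ 0 := by
  have := isOpenPosMeasure_meas μ P
  have hval : ∀ y, P.quo (fun e z => cf b e (toForm a) z) y =
      (P.w (chartAt E y) (chartAt E y y))⁻¹ * a y b := by
    intro y
    rw [Pou.quo, cf, pull_eq_loc a (chart_mem_atlas E y) (mem_chart_target E y), loc_self,
      smul_eq_mul]
  have hw : ∀ y, 0 < (P.w (chartAt E y) (chartAt E y y))⁻¹ := fun y =>
    inv_pos.2 (P.w_pos (chart_mem_atlas E y) (mem_chart_target E y))
  set f := P.quo (fun e z => cf b e (toForm a) z) with hf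
  obtain ⟨y, hy⟩ := h1
  have h2 : 0 < ∫ x, δ * f x ∂(P.meas μ) := by
    refine Continuous.integral_pos_of_hasCompactSupport_nonneg_nonzero
      (f := fun x => δ * f x) (x := y) ?_ ?_ ?_ ?_
    · exact continuous_const.mul (continuous_quo_cf P b ha)
    · exact HasCompactSupport.of_compactSpace _
    · intro x
      show 0 ≤ δ * f x
      rw [hval x, mul_left_comm]
      exact mul_nonneg (hw x).le (h0 x)
    · show δ * f y ≠ 0
      rw [hval y, mul_left_comm]
      exact mul_ne_zero (hw y).ne' hy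
  rw [integral_const_mul] at h2
  intro h3
  have h4 : ∫ x, f x ∂(P.meas μ) = 0 := h3
  rw [h4, mul_zero] at h2
  exact lt_irrefl _ h2

theorem II_dF {N : ℕ} (b : Basis (Fin (N + 1)) ℝ E) {β : M → E [⋀^Fin N]→L[ℝ] ℝ}
    (hβ : ∀ y, SmAt β y) : II μ P b (dF β) = 0 :=
  stokes μ P b (cForm_of_smAt hβ) (isExt_of_smAt hβ) isCompact_univ
    (fun x hx => absurd (mem_univ x) hx)

theorem II_zero {a : M → E [⋀^Fin N]→L[ℝ] ℝ} (ha : ∀ y, a y = 0) : II μ P b a = 0 := by
  have h : a = (0 : ℝ) • a := by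
    funext y
    rw [Pi.smul_apply, ha, smul_zero]
  rw [h, II_smul, zero_mul]

end integral

end Vale.Agent.P277.H60
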