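import Vale.Agent.P277.H60.FS
import Vale.Agent.P267.H175.RLoc

/-!
# P277: the Fubini-Study form of a projective map on a manifold
-/

set_option maxSynthPendingDepth 3

open scoped ContDiff Topology ComplexConjugate Manifold
open Vale.Agent.P267.H928.Int Vale.Agent.P267.H175

noncomputable section

namespace Vale.Agent.P277.H60

section flat
variable {n : ℕ}
variable {E : Type*} [NormedAddCommGroup E] [NormedSpace ℝ E]
variable {E' : Type*} [NormedAddCommGroup E'] [NormedSpace ℝ E']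

theorem fsF_congr {F F' : E → Fin n → ℂ} {z : E} (h : F =ᶠ[𝓝 z] F') : fsF F z = fsF F' z := by
  rw [fsF, fsF, h.fderiv_eq, h.self_of_nhds]

theorem fsF_comp {F : E → Fin n → ℂ} {φ : E' → E} {z : E'} (hF : DifferentiableAt ℝ F (φ z))
    (hφ : DifferentiableAt ℝ φ z) :
    fsF (fun y => F (φ y)) z = pb (fsF F (φ z)) (fderiv ℝ φ z) := by
  ext u w
  have h1 : fderiv ℝ (fun y => F (φ y)) z = (fderiv ℝ F (φ z)).comp (fderiv ℝ φ z) :=
    fderiv_comp (𝕜 := ℝ) (g := F) (f := φ) z hF hφ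
  rw [pb_apply, fsF_apply, fsF_apply, h1]
  rfl

end flat

variable {E : Type*} [NormedAddCommGroup E] [NormedSpace ℝ E]

section
variable {M : Type*} [TopologicalSpace M] [ChartedSpace E M]
variable {V : Type*} [NormedAddCommGroup V] [NormedSpace ℝ V]

variable (E) in
/-- smooth functions (in all charts) -/
def VSm (F : M → V) (y : M) : Prop :=
  ∀ e ∈ atlas E M, y ∈ e.source → ContDiffAt ℝ ∞ (fun z => F (e.symm z)) (e y)

end

variable (E) in
/-- A map to projective space given by local lifts `F i` over the open sets `D i`. -/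
structure PMap (n : ℕ) (M : Type*) [TopologicalSpace M] [ChartedSpace E M] where
  I : Type
  D : I → Set M
  F : I → M → (Fin n → ℂ)
  isOpen : ∀ i, IsOpen (D i)
  smooth : ∀ i, ∀ y ∈ D i, VSm E (F i) y
  ne : ∀ i, ∀ y ∈ D i, F i y ≠ 0
  change : ∀ i j, ∀ y, y ∈ D i → y ∈ D j → ∃ g : ℂ, F i y = g • F j y

variable {M : Type*} [TopologicalSpace M] [ChartedSpace E M] {n : ℕ}

namespace PMap

variable (p : PMap E n M)

/-- the domain -/
def dom : Set M := {y | ∃ i, y ∈ p.D i}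

open Classical in
/-- the Fubini-Study form, read in the preferred charts -/
def B (y : M) : Bil E :=
  if h : ∃ i, y ∈ p.D i then fsF (fun z => p.F h.choose ((chartAt E y).symm z)) (chartAt E y y)
  else 0

theorem fsF_indep {e : OpenPartialHomeomorph M E} (he : e ∈ atlas E M) {z : E}
    (hz : z ∈ e.target) {i j : p.I} (hi : e.symm z ∈ p.D i) (hj : e.symm z ∈ p.D j) :
    fsF (fun z => p.F i (e.symm z)) z = fsF (fun z => p.F j (e.symm z)) z := by
  have hs : e.symm z ∈ e.source := e.map_target hz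
  have h1 := p.smooth i _ hi e he hs
  have h2 := p.smooth j _ hj e he hs
  rw [e.right_inv hz] at h1 h2
  refine fsF_frame (h1.differentiableAt (by simp)) (h2.differentiableAt (by simp)) (p.ne _ _ hi)
    (p.ne _ _ hj) ?_
  filter_upwards [(e.symm.continuousAt hz).eventually ((p.isOpen i).mem_nhds hi),
    (e.symm.continuousAt hz).eventually ((p.isOpen j).mem_nhds hj)] with y hy1 hy2
  exact p.change i j _ hy1 hy2

theorem B_eq {y : M} {i : p.I} (hi : y ∈ p.D i) :
    p.B y = fsF (fun z => p.F i ((chartAt E y).symm z)) (chartAt E y y) := by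
  have h : ∃ i, y ∈ p.D i := ⟨i, hi⟩
  have h1 : (chartAt E y).symm (chartAt E y y) = y := (chartAt E y).left_inv (mem_chart_source E y)
  rw [B, dif_pos h]
  exact p.fsF_indep (chart_mem_atlas E y) (mem_chart_target E y) (by rw [h1]; exact h.choose_spec)
    (by rw [h1]; exact hi)

theorem B_of_notMem {y : M} (h : y ∉ p.dom) : p.B y = 0 := dif_neg h

/-- wedge product with the Fubini-Study form -/
def W {k : ℕ} (a : M → E [⋀^Fin k]→L[ℝ] ℝ) : M → E [⋀^Fin (k + 1 + 1)]→L[ℝ] ℝ :=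
  fun y => W2 (p.B y) (a y)

theorem W_apply {k : ℕ} (a : M → E [⋀^Fin k]→L[ℝ] ℝ) (y : M) : p.W a y = W2 (p.B y) (a y) := rfl

theorem W_add {k : ℕ} (a b : M → E [⋀^Fin k]→L[ℝ] ℝ) : p.W (a + b) = p.W a + p.W b := by
  funext y
  exact W2_add_right _ _ _

theorem W_smul {k : ℕ} (c : ℝ) (a : M → E [⋀^Fin k]→L[ℝ] ℝ) : p.W (c • a) = c • p.W a := by
  funext y
  exact W2_smul_right _ _ _

theorem W_of_notMem {k : ℕ} (a : M → E [⋀^Fin k]→L[ℝ] ℝ) {y : M} (h : y ∉ p.dom) :
    p.W a y = 0 := by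
  rw [W_apply, B_of_notMem p h, W2_zero]

theorem W_of_zero {k : ℕ} {a : M → E [⋀^Fin k]→L[ℝ] ℝ} {y : M} (h : a y = 0) : p.W a y = 0 := by
  rw [W_apply, h, W2_zero_right]

variable [IsManifold 𝓘(ℝ, E) ∞ M]

theorem loc_W {k : ℕ} (a : M → E [⋀^Fin k]→L[ℝ] ℝ) {e : OpenPartialHomeomorph M E}
    (he : e ∈ atlas E M) {z : E} (hz : z ∈ e.target) {i : p.I} (hi : e.symm z ∈ p.D i) :
    loc e (p.W a) z = W2 (fsF (fun z => p.F i (e.symm z)) z) (loc e a z) := by
  rw [loc, W_apply, W2_comp, ← loc]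
  congr 1
  set x := e.symm z with hx
  set c := chartAt E x with hc
  have hca : c ∈ atlas E M := chart_mem_atlas E x
  have hcx : x ∈ c.source := mem_chart_source E x
  rw [p.B_eq hi, ← hc]
  have h1 : DifferentiableAt ℝ (fun z => p.F i (c.symm z)) (c x) :=
    (p.smooth i _ hi c hca hcx).differentiableAt (by simp)
  have h2 : DifferentiableAt ℝ (fun y => c (e.symm y)) z :=
    (trR he hca hz hcx).differentiableAt (by simp)
  rw [← fsF_comp (F := fun z => p.F i (c.symm z)) (φ := fun y => c (e.symm y)) h1 h2]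
  apply fsF_congr
  filter_upwards [(e.symm.continuousAt hz).eventually (c.open_source.mem_nhds hcx)] with y hy
  rw [c.left_inv hy]

theorem loc_W_eventually {k : ℕ} (a : M → E [⋀^Fin k]→L[ℝ] ℝ) {e : OpenPartialHomeomorph M E}
    (he : e ∈ atlas E M) {z : E} (hz : z ∈ e.target) {i : p.I} (hi : e.symm z ∈ p.D i) :
    loc e (p.W a) =ᶠ[𝓝 z] fun z => W2 (fsF (fun z => p.F i (e.symm z)) z) (loc e a z) := by
  filter_upwards [(e.symm.isOpen_inter_preimage (p.isOpen i)).mem_nhds ⟨hz, hi⟩] with y hy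
  exact p.loc_W a he hy.1 hy.2

theorem smAt_W {k : ℕ} {a : M → E [⋀^Fin k]→L[ℝ] ℝ} {y : M} (ha : SmAt a y) {i : p.I}
    (hi : y ∈ p.D i) : SmAt (p.W a) y := by
  set c := chartAt E y with hc
  have hca : c ∈ atlas E M := chart_mem_atlas E y
  have hcy : y ∈ c.source := mem_chart_source E y
  have h1 : c.symm (c y) = y := c.left_inv hcy
  refine ContDiffAt.congr_of_eventuallyEq ?_
    (p.loc_W_eventually a hca (c.map_source hcy) (i := i) (by rw [h1]; exact hi))
  exact contDiffAt_W2 (contDiffAt_fsF (p.smooth i _ hi c hca hcy) (by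
    show p.F i (c.symm (c y)) ≠ 0
    rw [h1]
    exact p.ne _ _ hi)) ha

theorem dF_W {k : ℕ} {a : M → E [⋀^Fin k]→L[ℝ] ℝ} {y : M} (ha : SmAt a y) {i : p.I}
    (hi : y ∈ p.D i) : dF (p.W a) y = W2 (p.B y) (dF a y) := by
  set c := chartAt E y with hc
  have hca : c ∈ atlas E M := chart_mem_atlas E y
  have hcy : y ∈ c.source := mem_chart_source E y
  have h1 : c.symm (c y) = y := c.left_inv hcy
  have h2 := p.loc_W_eventually a hca (c.map_source hcy) (i := i) (by rw [h1]; exact hi)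
  rw [dF, ← hc, h2.extDeriv_eq, extDeriv_W2_fsF (p.smooth i _ hi c hca hcy) (by
    show p.F i (c.symm (c y)) ≠ 0
    rw [h1]
    exact p.ne _ _ hi) ha, p.B_eq hi]
  rfl

omit [IsManifold 𝓘(ℝ, E) ∞ M] in
theorem WW_eq_zero {k n : ℕ} (p : PMap E (n + 2) M) {y : M} {i : p.I} (hi : y ∈ p.D i)
    (h : ∀ᶠ x in 𝓝 y, ∀ m : Fin (n + 2), 2 ≤ m.val → p.F i x m = 0)
    (a : M → E [⋀^Fin k]→L[ℝ] ℝ) : p.W (p.W a) y = 0 := by
  set c := chartAt E y with hc
  have hca : c ∈ atlas E M := chart_mem_atlas E y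
  have hcy : y ∈ c.source := mem_chart_source E y
  have h1 : c.symm (c y) = y := c.left_inv hcy
  rw [W_apply, W_apply, p.B_eq hi]
  refine fsF_two ((p.smooth i _ hi c hca hcy).differentiableAt (by simp)) ?_ _
  have h2 : Filter.Tendsto c.symm (𝓝 (c y)) (𝓝 y) := by
    have := c.symm.continuousAt (c.map_source hcy)
    rwa [ContinuousAt, h1] at this
  exact h2.eventually h

omit [IsManifold 𝓘(ℝ, E) ∞ M] in
theorem dF_zero {k : ℕ} (y : M) : dF (0 : M → E [⋀^Fin k]→L[ℝ] ℝ) y = 0 := by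
  have h := dF_smul (0 : ℝ) (0 : M → E [⋀^Fin k]→L[ℝ] ℝ) y
  simpa using h

/-- `K` contains the support of the square of the Fubini-Study form -/
structure Supp (K : Set M) : Prop where
  isClosed : IsClosed K
  sub : K ⊆ p.dom
  zero : ∀ (k : ℕ) (a : M → E [⋀^Fin k]→L[ℝ] ℝ), ∀ y ∉ K, p.W (p.W a) y = 0

variable {p}

omit [IsManifold 𝓘(ℝ, E) ∞ M] in
theorem Supp.eventually {K : Set M} (hK : p.Supp K) {k : ℕ} (a : M → E [⋀^Fin k]→L[ℝ] ℝ) {y : M}
    (hy : y ∉ K) : p.W (p.W a) =ᶠ[𝓝 y] 0 := by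
  filter_upwards [hK.isClosed.isOpen_compl.mem_nhds hy] with x hx
  exact hK.zero _ a x hx

theorem Supp.smAt {K : Set M} (hK : p.Supp K) {k : ℕ} {a : M → E [⋀^Fin k]→L[ℝ] ℝ}
    (ha : ∀ y, SmAt a y) (y : M) : SmAt (p.W (p.W a)) y := by
  by_cases hy : y ∈ K
  · obtain ⟨i, hi⟩ := hK.sub hy
    exact p.smAt_W (p.smAt_W (ha y) hi) hi
  · exact (smAt_zero y).congr (hK.eventually a hy)

theorem Supp.dF {K : Set M} (hK : p.Supp K) {k : ℕ} {a : M → E [⋀^Fin k]→L[ℝ] ℝ}
    (ha : ∀ y, SmAt a y) (y : M) : dF (p.W (p.W a)) y = p.W (p.W (dF a)) y := by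
  by_cases hy : y ∈ K
  · obtain ⟨i, hi⟩ := hK.sub hy
    rw [p.dF_W (p.smAt_W (ha y) hi) hi, p.dF_W (ha y) hi]
    rfl
  · rw [hK.zero _ _ y hy, dF_congr (hK.eventually a hy), dF_zero]

end PMap

end Vale.Agent.P277.H60
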