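import Vale.Agent.P277.H60.Int
import Vale.Agent.P277.Stmts

/-!
# P277: positivity of the top form
-/

set_option maxSynthPendingDepth 3

open Module Set Function Filter
open scoped ContDiff Topology ComplexConjugate Manifold
open Vale.Agent.P267.H928.Int Vale.Agent.P267.H175 Vale.Agent.P272.K

noncomputable section

namespace Vale.Agent.P277.H60

/-- forms, linear maps and bases, with the instances coming from the normed space structure -/
abbrev AF (E : Type*) [NormedAddCommGroup E] [NormedSpace ℝ E] (k : ℕ) := E [⋀^Fin k]→L[ℝ] ℝ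
abbrev GF (E : Type*) [NormedAddCommGroup E] [NormedSpace ℝ E] (k : ℕ) (Y : Type*) := Y → E [⋀^Fin k]→L[ℝ] ℝ
abbrev LR (E : Type*) [NormedAddCommGroup E] [NormedSpace ℝ E] := E →L[ℝ] ℂ
abbrev ER (E : Type*) [NormedAddCommGroup E] [NormedSpace ℝ E] := E →L[ℝ] E
abbrev LC (E : Type*) [NormedAddCommGroup E] [NormedSpace ℂ E] := E →L[ℂ] ℂ
abbrev EC (E : Type*) [NormedAddCommGroup E] [NormedSpace ℂ E] := E →L[ℂ] E
abbrev BS (E : Type*) [NormedAddCommGroup E] [NormedSpace ℝ E] (k : ℕ) := Basis (Fin k) ℝ E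

section
variable {E : Type*} [NormedAddCommGroup E] [NormedSpace ℝ E]
variable {E' : Type*} [NormedAddCommGroup E'] [NormedSpace ℝ E']

/-- `Re l ∧ Im l ∧ Re l' ∧ Im l' ∧ β` -/
def w4 {k : ℕ} (l l' : E →L[ℝ] ℂ) (β : E [⋀^Fin k]→L[ℝ] ℝ) : E [⋀^Fin (k + 1 + 1 + 1 + 1)]→L[ℝ] ℝ :=
  wedge1 (Complex.reCLM ∘L l) (wedge1 (Complex.imCLM ∘L l)
    (wedge1 (Complex.reCLM ∘L l') (wedge1 (Complex.imCLM ∘L l') β)))

theorem w4_comp {k : ℕ} (l l' : E →L[ℝ] ℂ) (β : E [⋀^Fin k]→L[ℝ] ℝ) (T : E' →L[ℝ] E) :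
    (w4 l l' β).compContinuousLinearMap T =
      w4 (l ∘L T) (l' ∘L T) (β.compContinuousLinearMap T) := by
  rw [w4, wedge1_comp, wedge1_comp, wedge1_comp, wedge1_comp]
  rfl

theorem w4_smul {k : ℕ} (c : ℝ) (l l' : E →L[ℝ] ℂ) (β : E [⋀^Fin k]→L[ℝ] ℝ) :
    w4 l l' (c • β) = c • w4 l l' β := by
  simp only [w4, wedge1_smul_right]

theorem w4_apply_dual {k : ℕ} (l l' : E →L[ℝ] ℂ) (β : E [⋀^Fin k]→L[ℝ] ℝ)
    (v : Fin (k + 1 + 1 + 1 + 1) → E) (h0 : l (v 0) = 1) (h1 : l (v 1) = Complex.I)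
    (h2 : l (v 2) = 0) (h3 : l (v 3) = 0) (h2' : l' (v 2) = 1) (h3' : l' (v 3) = Complex.I)
    (h : ∀ i : Fin k, l (v i.succ.succ.succ.succ) = 0 ∧ l' (v i.succ.succ.succ.succ) = 0) :
    w4 l l' β v = β fun i => v i.succ.succ.succ.succ := by
  have e3 : v (Fin.succ 2) = v 3 := rfl
  rw [w4, wedge1_apply_dual, wedge1_apply_dual, wedge1_apply_dual, wedge1_apply_dual]
  · simp [e3, h3']
  · intro i
    simp [(h i).2]
  · simp [h2']
  · intro i
    refine Fin.cases ?_ (fun i => ?_) i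
    · simp [e3, h3']
    · simp [(h i).2]
  · simp [h1]
  · intro i
    refine Fin.cases ?_ (fun i => ?_) i
    · simp [h2]
    · refine Fin.cases ?_ (fun i => ?_) i
      · simp [e3, h3]
      · simp [(h i).1]
  · simp [h0]
  · intro i
    refine Fin.cases ?_ (fun i => ?_) i
    · simp [h1]
    · refine Fin.cases ?_ (fun i => ?_) i
      · simp [h2]
      · refine Fin.cases ?_ (fun i => ?_) i
        · simp [e3, h3]
        · simp [(h i).1]

/-- change of the (equal) degree -/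
def castf {k k' : ℕ} (h : k = k') (x : E [⋀^Fin k]→L[ℝ] ℝ) : E [⋀^Fin k']→L[ℝ] ℝ := h ▸ x

theorem castf_smul {k k' : ℕ} (h : k = k') (c : ℝ) (x : E [⋀^Fin k]→L[ℝ] ℝ) :
    castf h (c • x) = c • castf h x := by
  subst h
  rfl

theorem castf_zero {k k' : ℕ} (h : k = k') : castf h (0 : E [⋀^Fin k]→L[ℝ] ℝ) = 0 := by
  subst h
  rfl

theorem castf_comp {k k' : ℕ} (h : k = k') (x : E [⋀^Fin k]→L[ℝ] ℝ) (T : E' →L[ℝ] E) :
    (castf h x).compContinuousLinearMap T = castf h (x.compContinuousLinearMap T) := by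
  subst h
  rfl

theorem castf_apply {k k' : ℕ} (h : k = k') (x : E [⋀^Fin k]→L[ℝ] ℝ) (v : Fin k' → E) :
    castf h x v = x fun i => v (Fin.cast h i) := by
  subst h
  rfl

/-- the constant form -/
def one0 (E : Type*) [NormedAddCommGroup E] [NormedSpace ℝ E] : E [⋀^Fin 0]→L[ℝ] ℝ :=
  ContinuousAlternatingMap.constOfIsEmpty ℝ E (Fin 0) 1

/-- `Re l ∧ Im l ∧ Re l' ∧ Im l'` -/
def w4a (l l' : E →L[ℝ] ℂ) : E [⋀^Fin 4]→L[ℝ] ℝ :=
  castf (k := 0 + 1 + 1 + 1 + 1) rfl (w4 l l' (one0 E))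

theorem w4a_comp (l l' : E →L[ℝ] ℂ) (T : E' →L[ℝ] E) :
    (w4a l l').compContinuousLinearMap T = w4a (l ∘L T) (l' ∘L T) := by
  rw [w4a, castf_comp, w4_comp]
  rfl

end

section
variable {E : Type*} [NormedAddCommGroup E] [NormedSpace ℂ E] [NormedSpace ℝ E]
  [IsScalarTower ℝ ℂ E]

/-- `Re l 2 ∧ Im l 2 ∧ Re l 3 ∧ Im l 3 ∧ Re l 0 ∧ Im l 0 ∧ Re l 1 ∧ Im l 1` -/
def w8 (l : Fin 4 → (E →L[ℂ] ℂ)) : E [⋀^Fin (4 + 1 + 1 + 1 + 1)]→L[ℝ] ℝ :=
  w4 ((l 2).restrictScalars ℝ) ((l 3).restrictScalars ℝ)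
    (w4a ((l 0).restrictScalars ℝ) ((l 1).restrictScalars ℝ))

end

/-- coordinates -/
def prR (m : Fin 4) : LR (Cm 4) := ContinuousLinearMap.proj m

/-- the volume form of `ℂ⁴` -/
def vol8 : AF (Cm 4) (4 + 1 + 1 + 1 + 1) := w4 (prR 2) (prR 3) (w4a (prR 0) (prR 1))

theorem vol8_ne : vol8 ≠ 0 := by
  intro h
  have h1 : vol8 ![Pi.single 2 1, Pi.single 2 Complex.I, Pi.single 3 1, Pi.single 3 Complex.I,
      Pi.single 0 1, Pi.single 0 Complex.I, Pi.single 1 1, Pi.single 1 Complex.I] = 1 := by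
    rw [vol8, w4_apply_dual, w4a, castf_apply, w4_apply_dual]
    · rfl
    all_goals first
      | (simp [prR]; done)
      | (intro i; fin_cases i <;> simp [prR])
  rw [h] at h1
  simp at h1

theorem restrict_pi (l : Fin 4 → LC (Cm 4)) (m : Fin 4) :
    prR m ∘L (ContinuousLinearMap.pi l).restrictScalars ℝ = (l m).restrictScalars ℝ := by
  ext v
  rfl

theorem det_pi (l : Fin 4 → LC (Cm 4)) :
    LinearMap.det ((ContinuousLinearMap.pi l : EC (Cm 4)) : Cm 4 →ₗ[ℂ] Cm 4) =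
      (Matrix.of fun i j => l i (Pi.single j 1)).det := by
  rw [← LinearMap.det_toMatrix']
  have h : LinearMap.toMatrix' ((ContinuousLinearMap.pi l : EC (Cm 4)) : Cm 4 →ₗ[ℂ] Cm 4) =
      Matrix.of fun i j => l i (Pi.single j 1) := by
    ext i j
    rw [LinearMap.toMatrix'_apply]
    rfl
  rw [h]

theorem w8_eq (l : Fin 4 → LC (Cm 4)) :
    w8 l = vol8.compContinuousLinearMap
        ((ContinuousLinearMap.pi l : EC (Cm 4)).restrictScalars ℝ) := by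
  rw [vol8, w4_comp, w4a_comp, restrict_pi, restrict_pi, restrict_pi, restrict_pi, w8]

theorem form_aux {N : ℕ} (x a : AF (Cm 4) N) (L : EC (Cm 4))
    (b : BS (Cm 4) N) (D : ℂ) (hD : LinearMap.det (L : Cm 4 →ₗ[ℂ] Cm 4) = D)
    (h : x = a.compContinuousLinearMap (L.restrictScalars ℝ)) :
    x b = Complex.normSq D * a b := by
  rw [h, top_comp b a, det_real, smul_eq_mul, hD]

theorem w8_apply (l : Fin 4 → LC (Cm 4)) (b : BS (Cm 4) (4 + 1 + 1 + 1 + 1)) :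
    w8 l b = Complex.normSq (Matrix.of fun i j => l i (Pi.single j 1)).det * vol8 b :=
  form_aux (w8 l) vol8 (ContinuousLinearMap.pi l) b _ (det_pi l) (w8_eq l)

theorem ne_of {N : ℕ} (a : AF (Cm 4) N) (ha : a ≠ 0) (b : BS (Cm 4) N) :
    a b ≠ 0 := fun h => ha (top_eq_zero b h)

theorem vol8_basis_ne (b : BS (Cm 4) (4 + 1 + 1 + 1 + 1)) : vol8 b ≠ 0 :=
  ne_of vol8 vol8_ne b

end Vale.Agent.P277.H60
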