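import Vale.Agent.P267.H928.Int.Flat
import Vale.Agent.P267.H175.Alt

/-!
# P277: wedge products with 2-forms given by bilinear maps

A bilinear form `B` stands for the 2-form `(u, w) ↦ B u w - B w u`; `W2 B β` is its wedge product with
the alternating form `β`.
-/

set_option maxSynthPendingDepth 3

open scoped ContDiff Topology
open ContinuousAlternatingMap Vale.Agent.P267.H928.Int Vale.Agent.P267.H175

noncomputable section

namespace Vale.Agent.P277.H60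

variable {E : Type*} [NormedAddCommGroup E] [NormedSpace ℝ E]
variable {E' : Type*} [NormedAddCommGroup E'] [NormedSpace ℝ E']

/-- bilinear forms -/
abbrev Bil (E : Type*) [NormedAddCommGroup E] [NormedSpace ℝ E] := E →L[ℝ] E →L[ℝ] ℝ

/-- the second uncurrying -/
def AA {n : ℕ} (f : E →L[ℝ] E →L[ℝ] E [⋀^Fin n]→L[ℝ] ℝ) : E [⋀^Fin (n + 1 + 1)]→L[ℝ] ℝ :=
  alternatizeUncurryFin (alternatizeUncurryFinCLM ℝ E ℝ ∘L f)

theorem AA_symm {n : ℕ} {f : E →L[ℝ] E →L[ℝ] E [⋀^Fin n]→L[ℝ] ℝ} (h : ∀ u w, f u w = f w u) :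
    AA f = 0 := alternatizeUncurryFin_alternatizeUncurryFinCLM_comp_of_symmetric h

theorem AA_add {n : ℕ} (f g : E →L[ℝ] E →L[ℝ] E [⋀^Fin n]→L[ℝ] ℝ) :
    AA (f + g) = AA f + AA g := by
  rw [AA, ContinuousLinearMap.comp_add, alternatizeUncurryFin_add]; rfl

theorem AA_smul {n : ℕ} (c : ℝ) (f : E →L[ℝ] E →L[ℝ] E [⋀^Fin n]→L[ℝ] ℝ) :
    AA (c • f) = c • AA f := by
  rw [AA, ContinuousLinearMap.comp_smul, alternatizeUncurryFin_smul]; rfl

/-- `u ↦ w ↦ B u w • β` -/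
def bsm {n : ℕ} (B : Bil E) (β : E [⋀^Fin n]→L[ℝ] ℝ) : E →L[ℝ] E →L[ℝ] E [⋀^Fin n]→L[ℝ] ℝ :=
  ((ContinuousLinearMap.smulRightL ℝ E (E [⋀^Fin n]→L[ℝ] ℝ)).flip β) ∘L B

theorem bsm_apply {n : ℕ} (B : Bil E) (β : E [⋀^Fin n]→L[ℝ] ℝ) (u w : E) :
    bsm B β u w = B u w • β := rfl

/-- The wedge product of the 2-form defined by `B` and `β`. -/
def W2 {n : ℕ} (B : Bil E) (β : E [⋀^Fin n]→L[ℝ] ℝ) : E [⋀^Fin (n + 1 + 1)]→L[ℝ] ℝ :=
  AA (bsm B β)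

theorem W2_symm {n : ℕ} {B : Bil E} (h : ∀ u w, B u w = B w u) (β : E [⋀^Fin n]→L[ℝ] ℝ) :
    W2 B β = 0 := by
  refine AA_symm fun x y => ?_
  rw [bsm_apply, bsm_apply, h]

theorem bsm_add {n : ℕ} (B B' : Bil E) (β : E [⋀^Fin n]→L[ℝ] ℝ) :
    bsm (B + B') β = bsm B β + bsm B' β := by
  ext u w : 2
  simp only [bsm_apply, _root_.add_apply, add_smul]

theorem bsm_smul {n : ℕ} (c : ℝ) (B : Bil E) (β : E [⋀^Fin n]→L[ℝ] ℝ) :
    bsm (c • B) β = c • bsm B β := by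
  ext u w : 2
  simp only [bsm_apply, _root_.smul_apply, smul_assoc]

theorem bsm_add_right {n : ℕ} (B : Bil E) (β β' : E [⋀^Fin n]→L[ℝ] ℝ) :
    bsm B (β + β') = bsm B β + bsm B β' := by
  ext u w : 2
  simp only [bsm_apply, _root_.add_apply, smul_add]

theorem bsm_smul_right {n : ℕ} (c : ℝ) (B : Bil E) (β : E [⋀^Fin n]→L[ℝ] ℝ) :
    bsm B (c • β) = c • bsm B β := by
  ext u w : 2
  simp only [bsm_apply, _root_.smul_apply]
  rw [smul_comm]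

theorem W2_add {n : ℕ} (B B' : Bil E) (β : E [⋀^Fin n]→L[ℝ] ℝ) :
    W2 (B + B') β = W2 B β + W2 B' β := by
  rw [W2, bsm_add, AA_add]; rfl

theorem W2_smul {n : ℕ} (c : ℝ) (B : Bil E) (β : E [⋀^Fin n]→L[ℝ] ℝ) :
    W2 (c • B) β = c • W2 B β := by
  rw [W2, bsm_smul, AA_smul]; rfl

theorem W2_add_right {n : ℕ} (B : Bil E) (β β' : E [⋀^Fin n]→L[ℝ] ℝ) :
    W2 B (β + β') = W2 B β + W2 B β' := by
  rw [W2, bsm_add_right, AA_add]; rfl

theorem W2_smul_right {n : ℕ} (c : ℝ) (B : Bil E) (β : E [⋀^Fin n]→L[ℝ] ℝ) :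
    W2 B (c • β) = c • W2 B β := by
  rw [W2, bsm_smul_right, AA_smul]; rfl

@[simp] theorem W2_zero {n : ℕ} (β : E [⋀^Fin n]→L[ℝ] ℝ) : W2 (0 : Bil E) β = 0 :=
  W2_symm (fun _ _ => rfl) β

@[simp] theorem W2_zero_right {n : ℕ} (B : Bil E) : W2 B (0 : E [⋀^Fin n]→L[ℝ] ℝ) = 0 := by
  have := W2_smul_right (0 : ℝ) B (0 : E [⋀^Fin n]→L[ℝ] ℝ)
  simpa using this

theorem W2_congr {n : ℕ} {B B' : Bil E} (h : ∀ u w, B u w - B w u = B' u w - B' w u)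
    (β : E [⋀^Fin n]→L[ℝ] ℝ) : W2 B β = W2 B' β := by
  have h1 : B = B' + (B - B') := by abel
  rw [h1, W2_add, W2_symm (B := B - B'), add_zero]
  intro u w
  simp only [_root_.sub_apply]
  have := h u w
  linarith

/-- rank one bilinear forms -/
theorem W2_rank1 {n : ℕ} (l l' : E →L[ℝ] ℝ) (β : E [⋀^Fin n]→L[ℝ] ℝ) :
    W2 (l.smulRight l') β = wedge1 l (wedge1 l' β) := by
  rw [W2, AA, wedge1, wedge1]
  congr 1
  ext u : 1
  show alternatizeUncurryFin ((bsm (l.smulRight l') β) u) = l u • alternatizeUncurryFin _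
  rw [← alternatizeUncurryFin_smul]
  congr 1
  ext w : 1
  rw [bsm_apply]
  simp [smul_smul]

theorem wedge1_self {n : ℕ} (l : E →L[ℝ] ℝ) (β : E [⋀^Fin n]→L[ℝ] ℝ) :
    wedge1 l (wedge1 l β) = 0 := by
  rw [← W2_rank1, W2_symm]
  intro u w
  simp [mul_comm]

theorem wedge1_comm {n : ℕ} (l l' : E →L[ℝ] ℝ) (β : E [⋀^Fin n]→L[ℝ] ℝ) :
    wedge1 l (wedge1 l' β) = - wedge1 l' (wedge1 l β) := by
  rw [eq_neg_iff_add_eq_zero, ← W2_rank1, ← W2_rank1, ← W2_add, W2_symm]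
  intro u w
  simp only [_root_.add_apply, ContinuousLinearMap.smulRight_apply,
    _root_.smul_apply, smul_eq_mul]
  ring

theorem wedge1_add_right {n : ℕ} (l : E →L[ℝ] ℝ) (a b : E [⋀^Fin n]→L[ℝ] ℝ) :
    wedge1 l (a + b) = wedge1 l a + wedge1 l b := by
  ext v
  simp [wedge1_apply, mul_add, Finset.sum_add_distrib]

theorem wedge1_smul_right {n : ℕ} (c : ℝ) (l : E →L[ℝ] ℝ) (a : E [⋀^Fin n]→L[ℝ] ℝ) :
    wedge1 l (c • a) = c • wedge1 l a := by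
  ext v
  simp only [wedge1_apply, ContinuousAlternatingMap.smul_apply, Finset.smul_sum]
  refine Finset.sum_congr rfl fun i _ => ?_
  rw [smul_comm (l (v i)) c, smul_comm _ c]

theorem wedge1_smul_left {n : ℕ} (c : ℝ) (l : E →L[ℝ] ℝ) (a : E [⋀^Fin n]→L[ℝ] ℝ) :
    wedge1 (c • l) a = c • wedge1 l a := by
  ext v
  simp only [wedge1_apply, ContinuousAlternatingMap.smul_apply, Finset.smul_sum,
    _root_.smul_apply, smul_assoc]
  refine Finset.sum_congr rfl fun i _ => ?_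
  rw [smul_comm _ c]

theorem wedge1_neg_right {n : ℕ} (l : E →L[ℝ] ℝ) (a : E [⋀^Fin n]→L[ℝ] ℝ) :
    wedge1 l (-a) = - wedge1 l a := by
  rw [← neg_one_smul ℝ a, wedge1_smul_right, neg_one_smul]

/-- naturality of `alternatizeUncurryFin` -/
theorem alt_comp {n : ℕ} (f : E →L[ℝ] E [⋀^Fin n]→L[ℝ] ℝ) (T : E' →L[ℝ] E) :
    (alternatizeUncurryFin f).compContinuousLinearMap T =
      alternatizeUncurryFin ((compContinuousLinearMapCLM T) ∘L f ∘L T) := by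
  ext v
  simp only [ContinuousAlternatingMap.compContinuousLinearMap_apply,
    ContinuousAlternatingMap.alternatizeUncurryFin_apply]
  rfl

/-- pullback of a bilinear form -/
def pb (B : Bil E) (T : E' →L[ℝ] E) : Bil E' := B.bilinearComp T T

@[simp] theorem pb_apply (B : Bil E) (T : E' →L[ℝ] E) (u w : E') : pb B T u w = B (T u) (T w) := rfl

/-- naturality -/
theorem W2_comp {n : ℕ} (B : Bil E) (β : E [⋀^Fin n]→L[ℝ] ℝ) (T : E' →L[ℝ] E) :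
    (W2 B β).compContinuousLinearMap T = W2 (pb B T) (β.compContinuousLinearMap T) := by
  rw [W2, AA, alt_comp, W2, AA]
  congr 1
  ext u : 1
  show (alternatizeUncurryFin (bsm B β (T u))).compContinuousLinearMap T =
    alternatizeUncurryFin (bsm (pb B T) (β.compContinuousLinearMap T) u)
  rw [alt_comp]
  congr 1

/-! ### Leibniz rules -/

theorem alt_wedge1 {n : ℕ} (l : E →L[ℝ] ℝ) (D : E →L[ℝ] E [⋀^Fin n]→L[ℝ] ℝ)
    (f : E →L[ℝ] E [⋀^Fin (n + 1)]→L[ℝ] ℝ) (hf : ∀ u, f u = wedge1 l (D u)) :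
    alternatizeUncurryFin f = - wedge1 l (alternatizeUncurryFin D) := by
  let G : E →L[ℝ] E →L[ℝ] E [⋀^Fin n]→L[ℝ] ℝ := l.smulRight D
  have h1 : AA G = wedge1 l (alternatizeUncurryFin D) := by
    rw [AA, wedge1]
    congr 1
    ext u : 1
    show alternatizeUncurryFin (l u • D) = _
    rw [alternatizeUncurryFin_smul]
    rfl
  have h2 : AA G.flip = alternatizeUncurryFin f := by
    rw [AA]
    congr 1
    ext u : 1
    rw [hf, wedge1]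
    show alternatizeUncurryFin (G.flip u) = _
    congr 1
  have h3 : AA (G + G.flip) = 0 := AA_symm fun u w => by
    simp only [_root_.add_apply, ContinuousLinearMap.flip_apply]
    rw [add_comm]
  rw [AA_add, h1, h2] at h3
  exact eq_neg_of_add_eq_zero_right h3

/-- `wedge1` as a continuous bilinear map -/
def wedge1L (n : ℕ) : (E →L[ℝ] ℝ) →L[ℝ] (E [⋀^Fin n]→L[ℝ] ℝ) →L[ℝ] E [⋀^Fin (n + 1)]→L[ℝ] ℝ :=
  (ContinuousLinearMap.compL ℝ _ _ _ (alternatizeUncurryFinCLM ℝ E ℝ (n := n))) ∘L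
    (ContinuousLinearMap.smulRightL ℝ E (E [⋀^Fin n]→L[ℝ] ℝ))

theorem wedge1L_apply {n : ℕ} (l : E →L[ℝ] ℝ) (a : E [⋀^Fin n]→L[ℝ] ℝ) :
    wedge1L n l a = wedge1 l a := rfl

theorem extDeriv_wedge1_fun {n : ℕ} {α : E → E →L[ℝ] ℝ} {β : E → E [⋀^Fin n]→L[ℝ] ℝ} {x : E}
    (hα : DifferentiableAt ℝ α x) (hβ : DifferentiableAt ℝ β x) :
    extDeriv (fun y => wedge1 (α y) (β y)) x =
      W2 (fderiv ℝ α x) (β x) - wedge1 (α x) (extDeriv β x) := by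
  have hc : HasFDerivAt (fun y => wedge1L n (α y)) ((wedge1L n) ∘L (fderiv ℝ α x)) x :=
    (wedge1L n).hasFDerivAt.comp x hα.hasFDerivAt
  have h1 := hc.clm_apply hβ.hasFDerivAt
  have h2 : fderiv ℝ (fun y => wedge1 (α y) (β y)) x =
      (wedge1L n (α x)) ∘L (fderiv ℝ β x) + ((wedge1L n) ∘L (fderiv ℝ α x)).flip (β x) := h1.fderiv
  rw [extDeriv, h2, alternatizeUncurryFin_add, sub_eq_add_neg]
  refine (add_comm _ _).trans ?_
  congr 1
  exact alt_wedge1 (α x) (fderiv ℝ β x) _ fun u => rfl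

theorem contDiff_wedge1L {n : ℕ} {r : WithTop ℕ∞} :
    ContDiff ℝ r (fun l : E →L[ℝ] ℝ => wedge1L n l) := by fun_prop

/-- smoothness of a wedge product -/
theorem contDiffAt_wedge1 {Y : Type*} [NormedAddCommGroup Y] [NormedSpace ℝ Y] {n : ℕ}
    {r : WithTop ℕ∞} {α : Y → E →L[ℝ] ℝ} {β : Y → E [⋀^Fin n]→L[ℝ] ℝ} {x : Y}
    (hα : ContDiffAt ℝ r α x) (hβ : ContDiffAt ℝ r β x) :
    ContDiffAt ℝ r (fun y => wedge1 (α y) (β y)) x := by
  have h1 : ContDiffAt ℝ r (fun y => wedge1L n (α y)) x :=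
    ContDiffAt.comp (g := fun l => wedge1L n l) x contDiff_wedge1L.contDiffAt hα
  exact h1.clm_apply hβ

/-- `W2` as a continuous bilinear map -/
theorem contDiffAt_W2 {Y : Type*} [NormedAddCommGroup Y] [NormedSpace ℝ Y] {n : ℕ}
    {r : WithTop ℕ∞} {B : Y → Bil E} {β : Y → E [⋀^Fin n]→L[ℝ] ℝ} {x : Y}
    (hB : ContDiffAt ℝ r B x) (hβ : ContDiffAt ℝ r β x) :
    ContDiffAt ℝ r (fun y => W2 (B y) (β y)) x := by
  have h0 : ContDiffAt ℝ r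
      (fun y => (ContinuousLinearMap.smulRightL ℝ E (E [⋀^Fin n]→L[ℝ] ℝ)).flip (β y)) x :=
    (((ContinuousLinearMap.smulRightL ℝ E (E [⋀^Fin n]→L[ℝ] ℝ)).flip).contDiff.contDiffAt).comp x hβ
  have h1 : ContDiffAt ℝ r (fun y => bsm (B y) (β y)) x := h0.clm_comp hB
  have h2 : ContDiffAt ℝ r (fun y => alternatizeUncurryFinCLM ℝ E ℝ (n := n) ∘L bsm (B y) (β y)) x :=
    contDiffAt_const.clm_comp h1
  exact (alternatizeUncurryFinCLM ℝ E ℝ (n := n + 1)).contDiff.contDiffAt.comp x h2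

/-- `d (dα ∧ β) = dα ∧ dβ` -/
theorem extDeriv_W2_fun {n : ℕ} {α : E → E →L[ℝ] ℝ} {β : E → E [⋀^Fin n]→L[ℝ] ℝ} {x : E}
    (hα : ContDiffAt ℝ ∞ α x) (hβ : ContDiffAt ℝ ∞ β x) :
    extDeriv (fun y => W2 (fderiv ℝ α y) (β y)) x = W2 (fderiv ℝ α x) (extDeriv β x) := by
  have hα' : ∀ᶠ y in 𝓝 x, DifferentiableAt ℝ α y :=
    ((hα.of_le (m := 1) (by simp)).eventually (by simp)).mono
      fun y h => h.differentiableAt (by simp)
  have hβ' : ∀ᶠ y in 𝓝 x, DifferentiableAt ℝ β y :=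
    ((hβ.of_le (m := 1) (by simp)).eventually (by simp)).mono
      fun y h => h.differentiableAt (by simp)
  have hdβ : ContDiffAt ℝ ∞ (extDeriv β) x := by
    have h1 : ContDiffAt ℝ ∞ (fderiv ℝ β) x := hβ.fderiv_right (m := ∞) (by simp)
    exact (alternatizeUncurryFinCLM ℝ E ℝ (n := n)).contDiff.contDiffAt.comp x h1
  have h1 : (fun y => W2 (fderiv ℝ α y) (β y)) =ᶠ[𝓝 x]
      (extDeriv (fun y => wedge1 (α y) (β y)) + fun y => wedge1 (α y) (extDeriv β y)) := by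
    filter_upwards [hα', hβ'] with y h2 h3
    simp only [Pi.add_apply]
    rw [extDeriv_wedge1_fun h2 h3, sub_add_cancel]
  have h4 : ContDiffAt ℝ ∞ (extDeriv (fun y => wedge1 (α y) (β y))) x := by
    have h1 : ContDiffAt ℝ ∞ (fderiv ℝ (fun y => wedge1 (α y) (β y))) x :=
      (contDiffAt_wedge1 hα hβ).fderiv_right (m := ∞) (by simp)
    exact (alternatizeUncurryFinCLM ℝ E ℝ (n := n + 1)).contDiff.contDiffAt.comp x h1
  have h5 : ContDiffAt ℝ ∞ (fun y => wedge1 (α y) (extDeriv β y)) x := contDiffAt_wedge1 hα hdβ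
  rw [h1.extDeriv_eq, extDeriv_add (h4.differentiableAt (by simp)) (h5.differentiableAt (by simp)),
    extDeriv_extDeriv_apply (contDiffAt_wedge1 hα hβ) minS,
    extDeriv_wedge1_fun (hα.differentiableAt (by simp)) (hdβ.differentiableAt (by simp)),
    extDeriv_extDeriv_apply hβ minS]
  simp

/-! ### Pfaffians -/

/-- the square of a decomposable 2-form is zero -/
theorem W2_rank1_sq {n : ℕ} (l l' : E →L[ℝ] ℝ) (β : E [⋀^Fin n]→L[ℝ] ℝ) :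
    W2 (l.smulRight l') (W2 (l.smulRight l') β) = 0 := by
  rw [W2_rank1, W2_rank1, wedge1_comm l' l, wedge1_neg_right, wedge1_self, neg_zero]

/-- the bilinear form `∑_{i<j} p_ij l_i ⊗ l_j` in four variables -/
def pfB (p01 p02 p03 p12 p13 p23 : ℝ) (l0 l1 l2 l3 : E →L[ℝ] ℝ) : Bil E :=
  p01 • l0.smulRight l1 + p02 • l0.smulRight l2 + p03 • l0.smulRight l3 +
    p12 • l1.smulRight l2 + p13 • l1.smulRight l3 + p23 • l2.smulRight l3

theorem W2_pfB {n : ℕ} (p01 p02 p03 p12 p13 p23 : ℝ) (l0 l1 l2 l3 : E →L[ℝ] ℝ)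
    (β : E [⋀^Fin n]→L[ℝ] ℝ) :
    W2 (pfB p01 p02 p03 p12 p13 p23 l0 l1 l2 l3) β =
      p01 • wedge1 l0 (wedge1 l1 β) + p02 • wedge1 l0 (wedge1 l2 β) +
      p03 • wedge1 l0 (wedge1 l3 β) + p12 • wedge1 l1 (wedge1 l2 β) +
      p13 • wedge1 l1 (wedge1 l3 β) + p23 • wedge1 l2 (wedge1 l3 β) := by
  simp only [pfB, W2_add, W2_smul, W2_rank1]

theorem W2_pfB_sq {n : ℕ} (p01 p02 p03 p12 p13 p23 : ℝ) (l0 l1 l2 l3 : E →L[ℝ] ℝ)
    (β : E [⋀^Fin n]→L[ℝ] ℝ) :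
    W2 (pfB p01 p02 p03 p12 p13 p23 l0 l1 l2 l3) (W2 (pfB p01 p02 p03 p12 p13 p23 l0 l1 l2 l3) β) =
      (2 * (p01 * p23 - p02 * p13 + p03 * p12)) •
        wedge1 l0 (wedge1 l1 (wedge1 l2 (wedge1 l3 β))) := by
  have c10 : ∀ {k : ℕ} (a : E [⋀^Fin k]→L[ℝ] ℝ), wedge1 l1 (wedge1 l0 a) =
      - wedge1 l0 (wedge1 l1 a) := fun a => wedge1_comm _ _ a
  have c20 : ∀ {k : ℕ} (a : E [⋀^Fin k]→L[ℝ] ℝ), wedge1 l2 (wedge1 l0 a) =
      - wedge1 l0 (wedge1 l2 a) := fun a => wedge1_comm _ _ a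
  have c30 : ∀ {k : ℕ} (a : E [⋀^Fin k]→L[ℝ] ℝ), wedge1 l3 (wedge1 l0 a) =
      - wedge1 l0 (wedge1 l3 a) := fun a => wedge1_comm _ _ a
  have c21 : ∀ {k : ℕ} (a : E [⋀^Fin k]→L[ℝ] ℝ), wedge1 l2 (wedge1 l1 a) =
      - wedge1 l1 (wedge1 l2 a) := fun a => wedge1_comm _ _ a
  have c31 : ∀ {k : ℕ} (a : E [⋀^Fin k]→L[ℝ] ℝ), wedge1 l3 (wedge1 l1 a) =
      - wedge1 l1 (wedge1 l3 a) := fun a => wedge1_comm _ _ a
  have c32 : ∀ {k : ℕ} (a : E [⋀^Fin k]→L[ℝ] ℝ), wedge1 l3 (wedge1 l2 a) =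
      - wedge1 l2 (wedge1 l3 a) := fun a => wedge1_comm _ _ a
  rw [W2_pfB, W2_pfB]
  simp only [wedge1_add_right, wedge1_smul_right, c10, c20, c30, c21, c31, c32, wedge1_neg_right,
    wedge1_self, wedge1_zero_right, neg_zero, smul_zero, add_zero, zero_add, neg_neg,
    smul_neg, smul_smul]
  module

/-- evaluation on a dual tuple -/
theorem wedge1_apply_dual {n : ℕ} (l : E →L[ℝ] ℝ) (a : E [⋀^Fin n]→L[ℝ] ℝ) (v : Fin (n + 1) → E)
    (h0 : l (v 0) = 1) (h : ∀ i : Fin n, l (v i.succ) = 0) : wedge1 l a v = a (fun i => v i.succ) := by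
  rw [wedge1_apply, Fin.sum_univ_succ]
  simp only [h, h0]
  simp
  rfl

end Vale.Agent.P277.H60
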